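import Vale.Agent.N144.KT.Src

/-!
The free model along moving points: explicit form of the limit.
-/

namespace Vale.Agent.N144.KT

open Filter Topology Finset Vale.Agent.P144 Vale.Agent.N144.C Vale.Agent.P144.AL
open Vale.Agent.P144.H170 (pt rM pos cF rtu rtu_ne pt_fl_norm quarter_ne)
open Vale.Agent.P144.H135 (w0)
open Vale.Agent.P144.H436 (nn Rp_rM)
open Vale.Agent.P144S.F (sj)
open Vale.Agent.P144Y (Dom)
open Vale.Agent.P144T (Fam0 Good0 fre)
open Vale.Agent.P144T.E (Ins corr_eq Gn_eq cen_other cen_pair)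

/-! ### Identities at a fixed mesh -/

theorem ro_ne {κ : Type} [Fintype κ] {a : ℝ} (ha : 0 < a) (r : κ → Site) (f : Site) {s : ℝ}
    (hs : s = 1 / 4 ∨ s = 3 / 4) (t : ℝ) : ro a r (pos a f s t) ≠ 0 := by
  refine prod_ne_zero_iff.2 fun p _ => rtu_ne fun h => ?_
  have h1 := congrArg Complex.re h
  simp only [pos, cF, Complex.sub_re, Complex.zero_re] at h1
  refine mul_ne_zero ha.ne' (quarter_ne f.1 (r p).1 hs).1 ?_
  linarith

/-- The two corners of an energy. -/
def lab {n m : ℕ} (i : Fin m) : Bool → Lb n m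
  | false => .lo i
  | true => .hi i

section

variable (Λ : ℝ → Finset Site) (p : Pts)

theorem en_ty (i : Fin p.m) (b : Bool) : ∃ u s t, Ty u s t ∧
    et u = (if b then eh (p.j i) else 1) ∧ ∀ x y a,
      cnp (mv p x y) a (lab i b) = (fl a (y i) + u, fl a (y i)) ∧
      rho (mv p x y) a (lab i b) = ro a (fun i => fl a (x i)) (pos a (fl a (y i)) s t) := by
  cases b with
  | false =>
    refine ⟨_, _, _, ty_A, et_A, fun x y a => ⟨?_, rfl⟩⟩
    show ((fl a (y i), fl a (y i)) : Cn) = _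
    congr 1
    ext <;> simp
  | true =>
    by_cases hj : p.j i = 0
    · refine ⟨_, _, _, Or.inr (Or.inl ⟨rfl, rfl, rfl⟩), by rw [et_B, hj, if_pos rfl],
        fun x y a => ⟨?_, ?_⟩⟩
      · show ((fl a (y i) + dir (p.j i), fl a (y i)) : Cn) = _
        unfold dir
        rw [if_pos hj]
      · unfold rho ro lab
        simp only [wpos, if_pos hj]
    · have h1 : p.j i = 1 := by
        generalize p.j i = c at hj
        fin_cases c
        · exact absurd rfl hj
        · rfl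
      refine ⟨_, _, _, Or.inr (Or.inr ⟨rfl, rfl, rfl⟩), by rw [et_C, h1, if_pos rfl],
        fun x y a => ⟨?_, ?_⟩⟩
      · show ((fl a (y i) + dir (p.j i), fl a (y i)) : Cn) = _
        unfold dir
        rw [if_neg hj]
      · unfold rho ro lab
        simp only [wpos, if_neg hj]

theorem rho_ne {a : ℝ} (ha : 0 < a) {z : Lb p.n p.m} (hz : ¬ isTp p z) : rho p a z ≠ 0 := by
  cases z with
  | src i => exact ro_ne ha _ _ (Or.inl rfl) _
  | lo i => exact ro_ne ha _ _ (Or.inl rfl) _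
  | hi i =>
    obtain ⟨u, s, t, hu, -, h⟩ := en_ty p i true
    exact fun e => ro_ne ha _ _ hu.hs _ ((h p.x p.y a).2.symm.trans e)
  | tp c => exact absurd trivial hz

theorem rr_pt {a : ℝ} (ha : 0 < a) {x y : Lb p.n p.m} (hx : ¬ isTp p x) (hy : ¬ isTp p y) :
    AL.rr p a x * AL.rr p a y * (P144T.E.Kw Λ p a x y : ℂ) =
      rho p a x * rho p a y * (P144T.Kn Λ p a x y : ℂ) / a := by
  have hs : (√a : ℂ) ≠ 0 := by exact_mod_cast (Real.sqrt_pos.2 ha).ne'
  rw [rr_eq p a hx, rr_eq p a hy, show P144T.E.Kw Λ p a x y = wl (fun i => fl a (p.x i))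
    (fun k => fl a (p.y k)) p.j x * wl (fun i => fl a (p.x i)) (fun k => fl a (p.y k)) p.j y *
    P144T.Kn Λ p a x y from rfl, ← sqrt_mul_C ha]
  have h1 := congrArg (fun t : ℝ => (t : ℂ)) (wl_sq p (fun i => fl a (p.x i))
    (fun k => fl a (p.y k)) x)
  have h2 := congrArg (fun t : ℝ => (t : ℂ)) (wl_sq p (fun i => fl a (p.x i))
    (fun k => fl a (p.y k)) y)
  push_cast at h1 h2 ⊢
  generalize (wl (fun i => fl a (p.x i)) (fun k => fl a (p.y k)) p.j x : ℂ) = w1 at *
  generalize (wl (fun i => fl a (p.x i)) (fun k => fl a (p.y k)) p.j y : ℂ) = w2 at *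
  have e : w1 * (rho p a x / (√a : ℂ)) * (w2 * (rho p a y / (√a : ℂ))) *
      (w1 * w2 * (P144T.Kn Λ p a x y : ℂ)) = (w1 * w1) * (w2 * w2) *
      (rho p a x * rho p a y * (P144T.Kn Λ p a x y : ℂ) / ((√a : ℂ) * (√a : ℂ))) := by
    field_simp
  rw [e, h1, h2, one_mul, one_mul]

theorem rr_pair {a : ℝ} (ha : 0 < a) {ks : List (Fin p.m)} {k : Fin p.m} (hk : k ∈ ks)
    (hks : ks.Nodup) : AL.rr p a (.lo k) * AL.rr p a (.hi k) *
      (P144T.E.Kz Λ p ks a (.lo k) (.hi k) : ℂ) =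
      rho p a (.lo k) * rho p a (.hi k) * ((P144T.Kn Λ p a (.lo k) (.hi k) -
      sgn p a k * Wf (Λ a) 0 [cnp p a (.lo k), cnp p a (.hi k)] : ℝ) : ℂ) / a := by
  have hs : (√a : ℂ) ≠ 0 := by exact_mod_cast (Real.sqrt_pos.2 ha).ne'
  rw [cen_pair Λ p a hk hks, rr_eq p a (x := .lo k) (by simp [isTp]),
    rr_eq p a (x := .hi k) (by simp [isTp])]
  set w : ℝ := wl (fun i => fl a (p.x i)) (fun k => fl a (p.y k)) p.j (.hi k) with hw
  have hw2 : w * w = 1 := wl_sq p _ _ _
  have hwe : w = ep (cnp p a (.lo k)) (cnp p a (.hi k)) * sgn p a k := rfl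
  have e0 : wl (fun i => fl a (p.x i)) (fun k => fl a (p.y k)) p.j (.lo k : Lb p.n p.m) = 1 := rfl
  have e1 : P144T.E.Kw Λ p a (.lo k) (.hi k) = w * P144T.Kn Λ p a (.lo k) (.hi k) := by
    show (1 : ℝ) * w * _ = _
    rw [one_mul]; rfl
  have he := ep_sq (cnp p a (.lo k)) (cnp p a (.hi k))
  have e2 : w * (P144T.E.Kw Λ p a (.lo k) (.hi k) - P144T.E.tk Λ p a k) =
      P144T.Kn Λ p a (.lo k) (.hi k) -
      sgn p a k * Wf (Λ a) 0 [cnp p a (.lo k), cnp p a (.hi k)] := by
    rw [e1, mul_sub, ← mul_assoc, hw2, one_mul]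
    congr 1
    unfold P144T.E.tk
    rw [hwe]
    linear_combination (sgn p a k * Wf (Λ a) 0 [cnp p a (.lo k), cnp p a (.hi k)]) * he
  rw [← e2, e0]
  have h3 := sqrt_mul_C ha
  rw [← h3]
  push_cast
  field_simp

theorem sgn_eq (a : ℝ) (k : Fin p.m) : sgn p a k = ∏ i, ep (cnp p a (.lo k))
    (fl a (p.x i), fl a (p.x i)) * ep (cnp p a (.hi k)) (fl a (p.x i), fl a (p.x i)) := by
  unfold sgn srcs
  rw [List.map_map]
  exact (Fin.prod_univ_def fun i : Fin p.n => ep (cnp p a (.lo k)) (fl a (p.x i), fl a (p.x i)) *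
    ep (cnp p a (.hi k)) (fl a (p.x i), fl a (p.x i))).symm

/-- The sign and the roots of an energy. -/
noncomputable def hE (a : ℝ) (k : Fin p.m) : ℂ :=
  (wl (fun i => fl a (p.x i)) (fun k => fl a (p.y k)) p.j (.hi k) : ℂ) *
    (rho p a (.lo k) * rho p a (.hi k))

/-- The sign and the roots of the sources. -/
noncomputable def hS (a : ℝ) : ℂ :=
  (el (srcs fun i => fl a (p.x i)) : ℂ) * ∏ i, ((√a : ℂ) / rho p a (.src i))

theorem lbs_even {n m : ℕ} (ks : List (Fin m)) : Even (lbs (n := n) ks []).length ↔ Even n := by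
  rw [lbs_length]
  simp only [List.length_nil, add_zero]
  exact ⟨fun h => (Nat.even_add.1 h).2 (even_two_mul _), fun h => h.add (even_two_mul _)⟩

/-- The identity between the correlations and the Pfaffians. -/
theorem corr_pt {J : ℝ} (hJ : 0 < J) (hn : Even p.n) {a : ℝ} (ha : 0 < a)
    (hs : Sep (nn a) (fun i => fl a (p.x i)) (fun k => fl a (p.y k)) ∧ 1 ≤ nn a)
    (hi : Ins (Λ a) (fun i => fl a (p.x i)) (fun k => fl a (p.y k)) p.j) :
    (corr a (fre J Λ a) p : ℂ) = (P144T.Gn Λ (univ.image p.x) a : ℂ) * hS p a *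
      ((∏ k, hE p a k)⁻¹ * Pf (fun x y => AL.rr p a x * AL.rr p a y *
        (P144T.E.Kz Λ p (univ : Finset (Fin p.m)).toList a x y : ℂ))
        (lbs (univ : Finset (Fin p.m)).toList [])) := by
  have hx : Function.Injective p.x := fun i i' h => hs.1.u_inj (congrArg (fl a) h)
  have hH1 : ∏ k, hE p a k ≠ 0 := prod_ne_zero_iff.2 fun k _ => by
    refine mul_ne_zero (fun h => ?_) (mul_ne_zero (rho_ne p ha (by simp [isTp]))
      (rho_ne p ha (by simp [isTp])))
    have h1 := wl_sq p (fun i => fl a (p.x i)) (fun k => fl a (p.y k)) (.hi k)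
    rw [Complex.ofReal_eq_zero.1 h] at h1
    norm_num at h1
  have ha0 : (a : ℂ) ≠ 0 := by exact_mod_cast ha.ne'
  have hs0 : (√a : ℂ) ≠ 0 := by exact_mod_cast (Real.sqrt_pos.2 ha).ne'
  have e0 : (SG [] (srcs fun i => fl a (p.x i)) : ℝ) = el (srcs fun i => fl a (p.x i)) := by
    unfold SG
    simp
  rw [corr_eq Λ p hJ hs hi, ← Gn_eq Λ p hx ha, Pf_scale _ _ _ ((lbs_even _).2 hn),
    rr_prod p ha, length_toList, card_univ, Fintype.card_fin, Finset.prod_map_toList, e0]
  push_cast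
  rw [Pf_ofReal]
  have hP : (∏ i, (√a : ℂ) / rho p a (.src i)) * ∏ i, rho p a (.src i) / (√a : ℂ) = 1 := by
    rw [← prod_mul_distrib]
    refine prod_eq_one fun i _ => ?_
    have := rho_ne p ha (z := .src i) (by simp [isTp])
    field_simp
  unfold hS
  unfold hE at hH1 ⊢
  generalize (∏ i, (√a : ℂ) / rho p a (.src i)) = A at *
  generalize (∏ i, rho p a (.src i) / (√a : ℂ)) = B at *
  generalize (∏ k, (wl (fun i => fl a (p.x i)) (fun k => fl a (p.y k)) p.j (.hi k) : ℂ) *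
    (rho p a (.lo k) * rho p a (.hi k))) = D at *
  generalize Pf (fun x y => (P144T.E.Kz Λ p (univ : Finset (Fin p.m)).toList a x y : ℂ))
    (lbs (univ : Finset (Fin p.m)).toList []) = P at *
  have hA : A * (B * D * (a : ℂ)⁻¹ ^ p.m * P) = D * ((a : ℂ)⁻¹ ^ p.m * P) := by
    linear_combination (D * (a : ℂ)⁻¹ ^ p.m * P) * hP
  have h5 : A * (D⁻¹ * (B * D * (a : ℂ)⁻¹ ^ p.m * P)) = (a : ℂ)⁻¹ ^ p.m * P := by
    rw [show A * (D⁻¹ * (B * D * (a : ℂ)⁻¹ ^ p.m * P)) =
      D⁻¹ * (A * (B * D * (a : ℂ)⁻¹ ^ p.m * P)) by ring, hA, ← mul_assoc,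
      inv_mul_cancel₀ hH1, one_mul]
  linear_combination (-(P144T.Gn Λ (univ.image p.x) a : ℂ) *
    (el (srcs fun i => fl a (p.x i)) : ℂ)) * h5

end

/-! ### The order of the labels -/

section

variable {n m : ℕ} {ks : List (Fin m)}

theorem lab_mem {i : Fin m} (hi : i ∈ ks) (b : Bool) :
    (lab i b : Lb n m) ∈ flat Lb.lo Lb.hi ks := by
  unfold flat
  refine List.mem_flatMap.2 ⟨i, hi, ?_⟩
  cases b <;> simp [lab]

theorem sub_src {i : Fin m} (hi : i ∈ ks) (b : Bool) (j : Fin n) :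
    [(Lb.src j : Lb n m), lab i b].Sublist (lbs ks []) := by
  unfold lbs
  exact (List.singleton_sublist.2 (List.mem_map.2 ⟨j, List.mem_finRange j, rfl⟩)).append
    (List.singleton_sublist.2 (List.mem_append_left _ (lab_mem hi b)))

theorem sub_lohi {k : Fin m} (hk : k ∈ ks) : [(Lb.lo k : Lb n m), .hi k].Sublist (lbs ks []) := by
  have h1 : [(Lb.lo k : Lb n m), .hi k].Sublist (flat Lb.lo Lb.hi ks) := by
    induction ks with
    | nil => simp at hk
    | cons l ks ih =>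
      rw [flat_cons]
      rcases List.mem_cons.1 hk with rfl | h
      · exact ((List.nil_sublist _).cons_cons _).cons_cons _
      · exact ((ih h).cons _).cons _
  unfold lbs
  exact (h1.trans (List.sublist_append_left _ _)).trans (List.sublist_append_right _ _)

theorem lb_cases {z : Lb n m} (hz : z ∈ lbs ks []) : (∃ i, z = .src i) ∨ ∃ i b, z = lab i b := by
  cases z with
  | src i => exact Or.inl ⟨i, rfl⟩
  | lo i => exact Or.inr ⟨i, false, rfl⟩
  | hi i => exact Or.inr ⟨i, true, rfl⟩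
  | tp c => simp [lbs, flat] at hz

/-- The possible pairs of labels. -/
theorem pair_cases (hks : ks.Nodup) (hall : ∀ i, i ∈ ks) {z z' : Lb n m}
    (h : [z, z'].Sublist (lbs ks [])) : (∃ i j, i ≠ j ∧ z = .src i ∧ z' = .src j) ∨
      (∃ j i b, z = .src j ∧ z' = lab i b) ∨
      (∃ i b j b', i ≠ j ∧ z = lab i b ∧ z' = lab j b') ∨ ∃ i, z = .lo i ∧ z' = .hi i := by
  have hnd := lbs_nodup (n := n) hks List.nodup_nil
  have hne : z ≠ z' := by
    rintro rfl
    have := hnd.sublist h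
    simp at this
  rcases lb_cases (h.subset (List.mem_cons_self ..)) with ⟨i, rfl⟩ | ⟨i, b, rfl⟩ <;>
    rcases lb_cases (h.subset (List.mem_cons_of_mem _ (List.mem_cons_self ..))) with
      ⟨j, rfl⟩ | ⟨j, b', rfl⟩
  · exact Or.inl ⟨i, j, fun e => hne (by rw [e]), rfl, rfl⟩
  · exact Or.inr (Or.inl ⟨i, j, b', rfl, rfl⟩)
  · exact (nodup_order hnd h (sub_src (hall i) b j)).elim
  · by_cases hij : i = j
    · subst hij
      cases b <;> cases b'
      · exact absurd rfl hne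
      · exact Or.inr (Or.inr (Or.inr ⟨i, rfl, rfl⟩))
      · exact (nodup_order hnd h (sub_lohi (hall i))).elim
      · exact absurd rfl hne
    · exact Or.inr (Or.inr (Or.inl ⟨i, b, j, b', hij, rfl, rfl⟩))

/-- The factors of the labels in the limit. -/
noncomputable def wt (R : Fin m → ℂ) : Lb n m → ℂ
  | .src _ => rtu z0
  | .lo k => R k
  | .hi k => R k
  | .tp _ => 1

theorem wt_lab (R : Fin m → ℂ) (i : Fin m) (b : Bool) : wt R (lab i b : Lb n m) = R i := by
  cases b <;> rfl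

theorem wt_prod (R : Fin m → ℂ) (ks : List (Fin m)) :
    ((lbs (n := n) ks []).map (wt R)).prod = rtu z0 ^ n * (ks.map fun k => R k ^ 2).prod := by
  unfold lbs
  rw [List.map_append, List.prod_append, List.map_map, List.map_nil, List.append_nil]
  congr 1
  · rw [← Fin.prod_univ_def]
    exact (prod_const _).trans (by rw [card_univ, Fintype.card_fin]; rfl)
  · induction ks with
    | nil => rfl
    | cons k ks ih =>
      rw [flat_cons, List.map_cons, List.map_cons, List.prod_cons, List.prod_cons, ih,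
        List.map_cons, List.prod_cons, pow_two, mul_assoc]
      rfl

end

/-! ### Moving points -/

theorem flm {ι : Type} {l : Filter ι} {a : ι → ℝ} (ha : Tendsto a l (𝓝[>] 0)) {z : ι → ℂ} {c : ℂ}
    (hz : Tendsto z l (𝓝 c)) : Tendsto (fun k => pt (a k) (fl (a k) (z k))) l (𝓝 c) := by
  have h0 : Tendsto (fun k => 2 * a k) l (𝓝 (2 * 0)) :=
    (ha.mono_right nhdsWithin_le_nhds).const_mul _
  rw [mul_zero] at h0
  have h1 : Tendsto (fun k => pt (a k) (fl (a k) (z k)) - z k) l (𝓝 0) := by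
    refine squeeze_zero_norm' ?_ h0
    filter_upwards [ha.eventually self_mem_nhdsWithin] with k hk
    exact pt_fl_norm hk _
  have h2 := h1.add hz
  rw [zero_add] at h2
  exact h2.congr fun k => sub_add_cancel _ _

section

variable {ι : Type} {l : Filter ι} {a : ι → ℝ} {p : Pts} {x : ι → Fin p.n → ℂ}
  {y : ι → Fin p.m → ℂ} {D : Set ℂ} {Λ : ℝ → Finset Site}

theorem mv_mono (h : Mv l a p x y) {l' : Filter ι} (hl : l' ≤ l) : Mv l' a p x y :=
  ⟨h.a0.mono_left hl, fun i => (h.hx i).mono_left hl, fun i => (h.hy i).mono_left hl⟩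

theorem g_x (hp : Good0 D p) : Function.Injective p.x :=
  fun i i' h => Sum.inl_injective (hp.2.2 (by simpa using h))

theorem g_y (hp : Good0 D p) : Function.Injective p.y :=
  fun i i' h => Sum.inr_injective (hp.2.2 (by simpa using h))

theorem g_xy (hp : Good0 D p) (k : Fin p.m) (i : Fin p.n) : p.x i ≠ p.y k := fun h => by
  have := @hp.2.2 (Sum.inl i) (Sum.inr k) (by simpa using h)
  cases this

theorem inj_ev {κ : Type} [Finite κ] {r : κ → ι → Site} {ζ : κ → ℂ}
    (hr : ∀ i, Tendsto (fun k => pt (a k) (r i k)) l (𝓝 (ζ i))) (hζ : Function.Injective ζ) :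
    ∀ᶠ k in l, Function.Injective fun i => r i k := by
  have h : ∀ᶠ k in l, ∀ i i', i ≠ i' → r i k ≠ r i' k := by
    rw [eventually_all]; intro i; rw [eventually_all]; intro i'
    by_cases h : i = i'
    · exact Eventually.of_forall fun _ h' => absurd h h'
    · exact (ne_ev (hr i) (hr i') fun e => h (hζ e)).mono fun _ hk _ => hk
  filter_upwards [h] with k hk i i' e
  by_contra hne
  exact hk i i' hne e

theorem sep_mv (h : Mv l a p x y) (hD : D ⊆ Dia) (hp : Good0 D p) : ∀ᶠ k in l,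
    Sep (nn (a k)) (fun i => fl (a k) (x k i)) (fun i => fl (a k) (y k i)) ∧ 1 ≤ nn (a k) := by
  have hn := H436.nn_lim h.a0
  have fx := fun i => flm h.a0 (h.hx i)
  have fy := fun i => flm h.a0 (h.hy i)
  have h6 := in_ev h.a0 hn (flm h.a0 (tendsto_const_nhds (x := (0 : ℂ))))
    (by show |(0:ℂ).re| + |(0:ℂ).im| < 1; simp) 1
  filter_upwards [eventually_all.2 fun i => in_ev h.a0 hn (fx i) (hD (hp.1 i)) 2,
    eventually_all.2 fun i => in_ev h.a0 hn (fy i) (hD (hp.2.1 i)) 2, inj_ev fx (g_x hp),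
    inj_ev fy (g_y hp), eventually_all.2 fun i => eventually_all.2 fun k =>
      ne_ev (fx i) (fy k) (g_xy hp k i), h6] with k g1 g2 g3 g4 g5 g6
  refine ⟨⟨fun i => by exact_mod_cast g1 i, fun i => by exact_mod_cast g2 i, g3, g4, g5⟩, ?_⟩
  have a1 := abs_nonneg (fl (a k) (0:ℂ)).1
  have a2 := abs_nonneg (fl (a k) (0:ℂ)).2
  push_cast at g6
  omega

theorem ins_mv (h : Mv l a p x y) (hΛ : Fam0 D Λ) (hp : Good0 D p) : ∀ᶠ k in l,
    Ins (Λ (a k)) (fun i => fl (a k) (x k i)) (fun i => fl (a k) (y k i)) p.j := by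
  have hN := hΛ.comp h.a0
  filter_upwards [eventually_all.2 fun i => hN.mem h.a0 (hp.1 i) (flm h.a0 (h.hx i)),
    eventually_all.2 fun k => hN.deep h.a0 (hp.2.1 k) (flm h.a0 (h.hy k)) 1] with k h2 h3
  refine ⟨h2, fun k => h3 k _ (by simp) (by simp), fun k => h3 k _ ?_ ?_⟩ <;>
    unfold dir <;> split_ifs <;> simp

theorem el_mv {n : ℕ} (ha : Tendsto a l (𝓝[>] 0)) {r : Fin n → ι → Site} {ζ : Fin n → ℂ}
    (hr : ∀ i, Tendsto (fun k => pt (a k) (r i k)) l (𝓝 (ζ i))) (hζ : Function.Injective ζ)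
    (L : List (Fin n)) (hL : L.Nodup) : Tendsto (fun k =>
    (el (L.map fun i => ((r i k, r i k) : Cn)) : ℂ) * ((√(a k) : ℂ) ^ L.length /
      (L.map fun j => (L.map fun j' =>
        rtu (pos (a k) (r j k) (1 / 4) (1 / 4) - cF (a k) (r j' k))).prod).prod)) l
    (𝓝 ((1 / rtu z0) ^ L.length * csL ζ L)) := by
  induction L with
  | nil => simpa [el, csL] using tendsto_const_nhds
  | cons i L ih =>
    have hL' := List.nodup_cons.1 hL
    have hc := ih hL'.2
    have h1 : Tendsto (fun k => (L.map fun j => (ep (r i k, r i k) (r j k, r j k) : ℂ) /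
          (rtu (pos (a k) (r i k) (1 / 4) (1 / 4) - cF (a k) (r j k)) *
            rtu (pos (a k) (r j k) (1 / 4) (1 / 4) - cF (a k) (r i k)))).prod) l
        (𝓝 (L.map fun j => 1 / (Complex.I * (ζ i - ζ j))).prod) := by
      refine tendsto_list_prod L fun j hj => two_src ha (hr i) (hr j) fun h => ?_
      exact hL'.1 (hζ h ▸ hj)
    have h2 := (h1.const_mul (1 / rtu z0)).mul hc
    have e : 1 / rtu z0 * (L.map fun j => 1 / (Complex.I * (ζ i - ζ j))).prod *
        ((1 / rtu z0) ^ L.length * csL ζ L) = (1 / rtu z0) ^ (i :: L).length * csL ζ (i :: L) := by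
      rw [List.length_cons, csL]
      ring
    rw [e] at h2
    refine h2.congr' ?_
    filter_upwards [ha.eventually self_mem_nhdsWithin] with k hk
    have hk : 0 < a k := hk
    have hs : (√(a k) : ℂ) ≠ 0 := by exact_mod_cast (Real.sqrt_pos.2 hk).ne'
    set R : Fin n → Fin n → ℂ := fun j j' =>
      rtu (pos (a k) (r j k) (1 / 4) (1 / 4) - cF (a k) (r j' k)) with hR
    have e0 : ((i :: L).map fun j => ((i :: L).map fun j' => R j j').prod).prod =
        R i i * (L.map fun j => R i j * R j i).prod *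
          (L.map fun j => (L.map fun j' => R j j').prod).prod := by
      simp only [List.map_cons, List.prod_cons]
      rw [List.prod_map_mul, List.prod_map_mul]
      ring
    have e1 : R i i = (√(a k) : ℂ) * rtu z0 := self_eq hk _
    have e2 : (L.map fun j => (ep (r i k, r i k) (r j k, r j k) : ℂ) / (R i j * R j i)).prod =
        (((L.map fun i => ((r i k, r i k) : Cn)).map (ep (r i k, r i k))).prod : ℝ) /
        (L.map fun j => R i j * R j i).prod := by
      clear hL hL' hc h1 ih h2 e e0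
      induction L with
      | nil => simp
      | cons j L ih =>
        simp only [List.map_cons, List.prod_cons]
        rw [ih]
        push_cast
        rw [mul_div_mul_comm]
    show 1 / rtu z0 * (L.map fun j => (ep (r i k, r i k) (r j k, r j k) : ℂ) /
      (R i j * R j i)).prod * (_ * (_ / (L.map fun j => (L.map fun j' => R j j').prod).prod)) =
      _ * (_ / ((i :: L).map fun j => ((i :: L).map fun j' => R j j').prod).prod)
    rw [e0, List.map_cons, el, List.length_cons, pow_succ, e1, e2]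
    push_cast
    have h0 := rtu_ne z0_ne
    generalize rtu z0 = r0 at *
    generalize (L.map fun j => R i j * R j i).prod = A
    generalize (L.map fun j => (L.map fun j' => R j j').prod).prod = B
    generalize (√(a k) : ℂ) = s at *
    have : s ^ L.length * s / (s * r0 * A * B) = 1 / r0 * (1 / A) * (s ^ L.length / B) := by
      by_cases hA : A = 0
      · simp [hA]
      by_cases hB : B = 0
      · simp [hB]
      field_simp
    rw [this]
    ring

theorem hS_mv (h : Mv l a p x y) (hp : Good0 D p) :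
    Tendsto (fun k => hS (mv p (x k) (y k)) (a k)) l
      (𝓝 ((1 / rtu z0) ^ p.n * csL p.x (List.finRange p.n))) := by
  have h1 := el_mv h.a0 (fun i => flm h.a0 (h.hx i)) (g_x hp) (List.finRange p.n)
    (List.nodup_finRange _)
  rw [List.length_finRange] at h1
  refine h1.congr fun k => ?_
  unfold hS srcs
  rw [prod_div_distrib, prod_const, card_univ, Fintype.card_fin, Fin.prod_univ_def]
  congr 3

theorem hE_mv (h : Mv l a p x y) (hp : Good0 D p) (i : Fin p.m) :
    Tendsto (fun k => hE (mv p (x k) (y k)) (a k) i) l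
      (𝓝 ((sj (p.j i) : ℂ) * ∏ j, (p.y i - p.x j))) := by
  obtain ⟨u, s, t, hu, -, hc⟩ := en_ty p i true
  have h1 := Tendsto.const_mul (sj (p.j i) : ℂ) (tendsto_finsetProd univ fun j _ =>
    two_cor (x := fun k => fl (a k) (y k i)) (x' := fun k => fl (a k) (y k i) + u) (s := 1 / 4)
      h.a0 (flm h.a0 (h.hy i)) (flm h.a0 (h.hx j)) (fun _ => Or.inl ⟨rfl, rfl⟩)
      (fun _ => hu.typ _) (1 / 4) t (g_xy hp i j).symm)
  refine h1.congr fun k => ?_
  have e1 : wl (fun i => fl (a k) (x k i)) (fun i => fl (a k) (y k i)) p.j (.hi i) =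
      sj (p.j i) * sgn (mv p (x k) (y k)) (a k) i := by
    unfold sj
    rw [← ep_lohi (fl (a k) (y k i))]
    rfl
  have e2 := (hc (x k) (y k) (a k)).1
  have e3 := (hc (x k) (y k) (a k)).2
  unfold lab at e2 e3
  show _ = (wl (fun i => fl (a k) (x k i)) (fun i => fl (a k) (y k i)) p.j (.hi i) : ℂ) * (_ * _)
  rw [e1, sgn_eq, e2, e3, prod_mul_distrib, prod_mul_distrib]
  push_cast
  rw [mul_assoc]
  rfl

variable {Ω : Dom}

theorem sq_mv (h : Mv l a p x y) (hΛ : Fam0 Ω.D Λ) (hp : Good0 Ω.D p) :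
    Sq Ω l a (fun k => Λ (a k)) (fun i k => fl (a k) (x k i)) p.x :=
  ⟨h.a0, hΛ.comp h.a0, fun i => flm h.a0 (h.hx i), g_x hp, hp.1⟩

/-- The limits of the scaled kernels. -/
theorem kz_mv {l : Ultrafilter ι} (h : Mv (l : Filter ι) a p x y) (hΛ : Fam0 Ω.D Λ)
    (hp : Good0 Ω.D p) {s : Fin p.n → ℂ → ℂ} {e e₀ : EF p.m} (hF : IsF Ω p s e e₀)
    {z z' : Lb p.n p.m} (hz : [z, z'].Sublist (lbs (univ : Finset (Fin p.m)).toList [])) :
    Tendsto (fun k => AL.rr (mv p (x k) (y k)) (a k) z * AL.rr (mv p (x k) (y k)) (a k) z' *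
      (P144T.E.Kz Λ (mv p (x k) (y k)) (univ : Finset (Fin p.m)).toList (a k) z z' : ℂ)) l
      (𝓝 (wt e.R z * wt e.R z' *
        kF p.x p.y s e e₀.Y (fun k b => if b then eh (p.j k) else 1) z z')) := by
  have hq := sq_mv h hΛ hp
  have fy := fun i => flm h.a0 (h.hy i)
  have nt : ∀ k (i : Fin p.m) (b : Bool), ¬ isTp (mv p (x k) (y k)) (lab i b) := fun k i b => by
    cases b <;> simp [lab, isTp]
  have ns : ∀ k (i : Fin p.n), ¬ isTp (mv p (x k) (y k)) (.src i) := fun k i => by simp [isTp]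
  rcases pair_cases (nodup_toList _) (fun i => mem_toList.2 (mem_univ i)) hz with
    ⟨i, j, hij, rfl, rfl⟩ | ⟨j, i, b, rfl, rfl⟩ | ⟨i, b, j, b', hij, rfl, rfl⟩ | ⟨i, rfl, rfl⟩
  · refine (k1_lim hq hij (hF.s j)).congr' ?_
    filter_upwards [hq.apos] with k hk
    rw [cen_other Λ (mv p (x k) (y k)) _ _ (by rintro i ⟨h, -⟩; cases h),
      rr_pt Λ (mv p (x k) (y k)) hk (ns k i) (ns k j)]
    unfold P144T.Kn
    rw [Rp_rM]
    rfl
  · obtain ⟨u, s', t, hu, he, hc⟩ := en_ty p i b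
    have h1 := (k2_lim hq (hp.2.1 i) (g_xy hp i) (fy i) hu (hF.s j) (hF.e.hR i)).neg
    have e1 : wt e.R (.src j) * wt e.R (lab i b : Lb p.n p.m) *
        kF p.x p.y s e e₀.Y (fun k b => if b then eh (p.j k) else 1) (.src j) (lab i b) =
        - -(rtu z0 * e.R i * (((et u * (s j (p.y i) / e.R i)).re : ℝ) * (sc0 * s j (p.x j)))) := by
      rw [neg_neg, wt_lab, he]
      cases b <;> rfl
    rw [e1]
    refine h1.congr' ?_
    filter_upwards [hq.apos, sep_mv h (fun _ hz => Ω.dia hz) hp] with k hk hs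
    have hne : (.src j : Lb p.n p.m) ≠ lab i b := by cases b <;> simp [lab]
    rw [cen_other Λ (mv p (x k) (y k)) _ _ (by rintro i ⟨h, -⟩; cases h),
      rr_pt Λ (mv p (x k) (y k)) hk (ns k j) (nt k i b)]
    unfold P144T.Kn
    rw [Wf_swap _ _ (c := cnp (mv p (x k) (y k)) (a k) (.src j))
      (c' := cnp (mv p (x k) (y k)) (a k) (lab i b)) (Sep.cn_cnr _) (Sep.cn_cnr _)
      fun h' => hne (hs.1.cn_inj (j := p.j) hs.2 h'), Rp_rM, (hc _ _ _).1, (hc _ _ _).2]
    push_cast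
    rw [mul_neg, neg_div, mul_comm (rho _ _ _)]
    rfl
  · obtain ⟨u, s', t, hu, he, hc⟩ := en_ty p i b
    obtain ⟨u', s'', t', hu', he', hc'⟩ := en_ty p j b'
    have h1 := k3_lim hq hF.e hij (fun e => hij (g_y hp e)) (hp.2.1 i) (hp.2.1 j) (g_xy hp i)
      (g_xy hp j) (fy i) (fy j) hu hu' e₀.Y
    have e1 : wt e.R (lab i b : Lb p.n p.m) * wt e.R (lab j b' : Lb p.n p.m) *
        kF p.x p.y s e e₀.Y (fun k b => if b then eh (p.j k) else 1) (lab i b) (lab j b') =
        e.R i * e.R j * (kE e p.y e₀.Y i (et u) j (et u') : ℝ) := by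
      rw [wt_lab, wt_lab, he, he']
      cases b <;> cases b' <;> rfl
    rw [e1]
    refine h1.congr' ?_
    filter_upwards [hq.apos] with k hk
    have hne : ∀ i', ¬ ((lab i b : Lb p.n p.m) = .lo i' ∧ (lab j b' : Lb p.n p.m) = .hi i') := by
      rintro i' ⟨h1, h2⟩
      cases b <;> cases b' <;> simp only [lab, reduceCtorEq, Lb.lo.injEq, Lb.hi.injEq] at h1 h2
      exact hij (h1.trans h2.symm)
    rw [cen_other Λ (mv p (x k) (y k)) _ _ hne,
      rr_pt Λ (mv p (x k) (y k)) hk (nt k i b) (nt k j b'), RR_ro, RR_ro]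
    unfold P144T.Kn
    rw [Rp_rM, (hc _ _ _).1, (hc _ _ _).2, (hc' _ _ _).1, (hc' _ _ _).2]
  · obtain ⟨u, s', t, hu, he, hc⟩ := en_ty p i true
    have h1 := k4_lim hq hF.e hF.e₀ (hp.2.1 i) (g_xy hp i) (fy i) hu
    rw [he] at h1
    refine h1.congr' ?_
    filter_upwards [hq.apos] with k hk
    have e2 := (hc (x k) (y k) (a k)).1
    have e3 := (hc (x k) (y k) (a k)).2
    unfold lab at e2 e3
    rw [rr_pair Λ (mv p (x k) (y k)) hk (mem_toList.2 (mem_univ i)) (nodup_toList _), RR_ro, RR_ro,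
      sgn_eq]
    unfold P144T.Kn
    rw [Rp_rM, e2, e3]
    rfl

end

/-- **The data of the free model exist.** -/
theorem sExF : SExF := by
  intro Ω Λ p hL hΛ hp
  have h : Mv (Ultrafilter.of (𝓝[>] (0 : ℝ)) : Filter ℝ) (fun a => a) p (fun _ => p.x)
      fun _ => p.y := ⟨Ultrafilter.of_le _, fun _ => tendsto_const_nhds, fun _ => tendsto_const_nhds⟩
  have hq := sq_mv h hΛ hp
  choose s hs using fun j => pm_exists hq j
  obtain ⟨e, he⟩ := exists_isE hL hq hp.2.1 (g_xy hp) fun i => flm h.a0 (h.hy i)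
  obtain ⟨e₀, he₀⟩ := exists_isE hL hq.empty hp.2.1 (fun _ q => q.elim) fun i => flm h.a0 (h.hy i)
  exact ⟨s, e, e₀, fun j => pm_ssol (hs j), he, he₀⟩

/-- **The free model along moving points.** -/
theorem sFree : SFree := by
  intro J hJ Ω Λ p hΛ hp ι l a x y h
  have hD : Ω.D ⊆ Dia := fun _ hz => Ω.dia hz
  refine ⟨fun hn => ?_, fun hn s e e₀ hF g hg => ?_⟩
  · filter_upwards [sep_mv h hD hp, ins_mv h hΛ hp] with k h1 h2
    rw [corr_eq Λ (mv p (x k) (y k)) hJ h1 h2, Pf_odd _ _ fun h => hn ((lbs_even _).1 h)]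
    ring
  refine (tendsto_iff_ultrafilter _ _ _).2 fun U hU => ?_
  have h' := mv_mono h hU
  have hPf := Pf_tendstoC _ _ _ fun z z' hz => kz_mv h' hΛ hp hF hz
  rw [Pf_scale _ _ _ ((lbs_even _).2 hn), wt_prod, Finset.prod_map_toList] at hPf
  have hH := tendsto_finsetProd univ fun i _ => hE_mv h' hp i
  have s2 : ∀ i, (sj (p.j i) : ℂ) * sj (p.j i) = 1 := fun i => by
    unfold sj
    split_ifs <;> simp
  have R0 : ∏ i, e.R i ^ 2 ≠ 0 :=
    prod_ne_zero_iff.2 fun i _ => pow_ne_zero _ (R_ne hF.e (g_xy hp i))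
  have s3 : (∏ i, (sj (p.j i) : ℂ)) * ∏ i, (sj (p.j i) : ℂ) = 1 := by
    rw [← prod_mul_distrib]
    exact prod_eq_one fun i _ => s2 i
  have eH : ∏ i, ((sj (p.j i) : ℂ) * ∏ j, (p.y i - p.x j)) =
      (∏ i, (sj (p.j i) : ℂ)) * ∏ i, e.R i ^ 2 := by
    rw [← prod_mul_distrib]
    exact prod_congr rfl fun i _ => by rw [hF.e.hR i]
  rw [eH] at hH
  have hg' : Tendsto (fun k => (P144T.Gn Λ (univ.image (x k)) (a k) : ℂ)) U (𝓝 (g : ℂ)) :=
    (Complex.continuous_ofReal.tendsto _).comp (hg.mono_left hU)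
  have hall := (hg'.mul (hS_mv h' hp)).mul ((hH.inv₀ (mul_ne_zero
    (left_ne_zero_of_mul_eq_one s3) R0)).mul hPf)
  have h3 := (Complex.continuous_re.tendsto _).comp (hall.congr' (f₂ := fun k =>
    (corr (a k) (fre J Λ (a k)) (mv p (x k) (y k)) : ℂ)) (by
      filter_upwards [sep_mv h' hD hp, ins_mv h' hΛ hp, h'.a0.eventually self_mem_nhdsWithin]
        with k h1 h2 h3
      exact (corr_pt Λ (mv p (x k) (y k)) hJ hn h3 h1 h2).symm))
  have z1 := pow_ne_zero p.n (rtu_ne z0_ne)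
  unfold vF
  generalize Pf (kF p.x p.y s e e₀.Y fun k b => if b then eh (p.j k) else 1)
    (lbs (univ : Finset (Fin p.m)).toList []) = P at h3 ⊢
  generalize csL p.x (List.finRange p.n) = c at h3 ⊢
  have e4 : (g : ℂ) * ((1 / rtu z0) ^ p.n * c) * (((∏ i, (sj (p.j i) : ℂ)) * ∏ i, e.R i ^ 2)⁻¹ *
      ((rtu z0 ^ p.n * ∏ i, e.R i ^ 2) * P)) = ((g * ∏ i, sj (p.j i) : ℝ) : ℂ) * (c * P) := by
    rw [mul_inv, inv_eq_of_mul_eq_one_right s3, one_div, inv_pow]
    push_cast
    field_simp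
  rw [e4, Complex.re_ofReal_mul, mul_assoc] at h3
  exact h3

end Vale.Agent.N144.KT
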