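import Vale.Agent.N144.KT.Pol

/-!
The kernels of the free model between energies, along sequences of lattice points.
-/

set_option linter.unusedSectionVars false

namespace Vale.Agent.N144.KT

open Filter Topology Finset Vale.Agent.P144 Vale.Agent.N144.C
open Vale.Agent.P144.H170 (Pt pt rM pos RR RS gs VS Mk RR_eq RS_ne gs_sq notMem_Mk)
open Vale.Agent.P144.H135 (w0 v0 kap F0 phT phT_A phT_B phT_C PKr sg0 gr sg0_sq gr_sq seq_nf rs_seq
  rr_mul rM_empty)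
open Vale.Agent.P144Y (Dom)
open Vale.Agent.P144T (Appr)
open Vale.Agent.P144T.C (BLim Geo Pos BD bA bB bC bE blim_exists exists_BD eA_Wf eB_Wf eC_Wf)

/-- The three types of corners. -/
def Ty (u : Site) (s t : ℝ) : Prop := (u = (0, 0) ∧ s = 1 / 4 ∧ t = 1 / 4) ∨
  (u = (1, 0) ∧ s = 3 / 4 ∧ t = 1 / 4) ∨ (u = (0, 1) ∧ s = 1 / 4 ∧ t = 3 / 4)

theorem Ty.u {u : Site} {s t : ℝ} (h : Ty u s t) : u = (0, 0) ∨ u = (1, 0) ∨ u = (0, 1) := by
  rcases h with ⟨h, -⟩ | ⟨h, -⟩ | ⟨h, -⟩ <;> simp [h]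

theorem Ty.hs {u : Site} {s t : ℝ} (h : Ty u s t) : s = 1 / 4 ∨ s = 3 / 4 := by
  rcases h with ⟨-, h, -⟩ | ⟨-, h, -⟩ | ⟨-, h, -⟩ <;> simp [h]

theorem Ty.cnr {u : Site} {s t : ℝ} (h : Ty u s t) (f : Site) : f + u ∈ AL.cnr f := by
  rw [AL.mem_cnr]
  rcases h with ⟨rfl, -⟩ | ⟨rfl, -⟩ | ⟨rfl, -⟩
  · left; ext <;> simp
  · right; left; ext <;> simp
  · right; right; left; ext <;> simp

theorem Ty.typ {u : Site} {s t : ℝ} (h : Ty u s t) (f : Site) : AL.Typ (f + u) f s := by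
  rcases h with ⟨rfl, rfl, -⟩ | ⟨rfl, rfl, -⟩ | ⟨rfl, rfl, -⟩
  · exact Or.inl ⟨by simp, rfl⟩
  · exact Or.inr ⟨by simp, rfl⟩
  · exact Or.inl ⟨by simp, rfl⟩

theorem ty_A : Ty (0, 0) (1 / 4) (1 / 4) := Or.inl ⟨rfl, rfl, rfl⟩

theorem exists_ty {η : ℂ} (h : η = 1 ∨ η = eh 0 ∨ η = eh 1) : ∃ u s t, Ty u s t ∧ et u = η := by
  rcases h with rfl | rfl | rfl
  · exact ⟨_, _, _, ty_A, et_A⟩
  · exact ⟨_, _, _, Or.inr (Or.inl ⟨rfl, rfl, rfl⟩), et_B⟩
  · exact ⟨_, _, _, Or.inr (Or.inr ⟨rfl, rfl, rfl⟩), et_C⟩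

theorem Ty.sg0 {κ : Type} [Fintype κ] {u : Site} {s t : ℝ} (h : Ty u s t) (S : κ → Prop)
    (r : κ → Site) (f : Site) : sg0 S r (f + u, f) = gr S r (f.1 + s) := by
  unfold H135.sg0 gr
  rcases h with ⟨rfl, rfl, -⟩ | ⟨rfl, rfl, -⟩ | ⟨rfl, rfl, -⟩
  · rw [if_pos (by simp)]
  · rw [if_neg (by simp)]
  · rw [if_pos (by simp)]

theorem gr_eq {ι κ : Type} [Fintype κ] (S : κ → Prop) (r : κ → Site) (k : ι) (t : ℝ) :
    gs S F0 r (fun q => v0 q k) t = gr S r t := by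
  have e : (fun q : Empty => (q.elim : Site)) = fun q => v0 q k := by
    funext q; exact q.elim
  unfold gr
  rw [e]
  rfl

theorem gr_C {κ : Type} [Fintype κ] (S : κ → Prop) (r : κ → Site) (t : ℝ) :
    (gr S r t : ℂ) * gr S r t = 1 := by
  rw [← Complex.ofReal_mul, gr_sq]; simp

/-- The value of a kernel of the plane at the face of the source. -/
noncomputable def qT (u : Site) (QA QB QC : Pt → ℝ) : ℝ :=
  if u = (0, 0) then QA 0 else if u = (1, 0) then QB 0 else QC 0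

theorem qT_self {u : Site} {s t : ℝ} (h : Ty u s t) {QA QB QC QE : Pt → ℝ} {κ0 : ℂ}
    (K : PKr u QA QB QC QE κ0) (f : Site) : qT u QA QB QC = AL.ep (f + u, f) (f + u, f) := by
  unfold qT AL.ep
  rcases h with ⟨rfl, -⟩ | ⟨rfl, -⟩ | ⟨rfl, -⟩
  · rw [if_pos rfl, if_neg (by simp)]
    exact K.sA rfl
  · rw [if_neg (by simp), if_pos rfl, if_pos (by simp)]
    exact K.sB rfl
  · rw [if_neg (by simp), if_neg (by simp), if_pos (by simp)]
    exact K.sC rfl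

theorem sgn_inv (φ : ℂ →L[ℝ] ℝ) {R R' : ℂ} (h : R' ^ 2 = R ^ 2) (w : ℂ) :
    R' * (φ (w / R') : ℂ) = R * (φ (w / R) : ℂ) := by
  rcases sq_eq_sq_iff_eq_or_eq_neg.1 h with h | h
  · rw [h]
  · rw [h, div_neg, map_neg]
    push_cast
    ring

section

variable {ι κ : Type} [Fintype κ] {Ω : Dom} {a : ι → ℝ} {N : ι → Finset Site}
  {r : κ → ι → Site} {ζ : κ → ℂ} {f w : ι → Site} {z z' : ℂ} {δ : ℝ} {u u' : Site}
  {s t s' t' : ℝ} {S : κ → Prop} {QA QB QC QE : Pt → ℝ} {κ0 : ℂ} {q Y : ℂ → ℂ}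

/-- The corner of type `u` at the faces `f`. -/
abbrev cm (f : ι → Site) (u : Site) (k : ι) : AL.Cn := (f k + u, f k)

/-- The limit of the spinor with the source at the corner of type `u` at the faces `f`. -/
abbrev BM (Ω : Dom) (l : Filter ι) (a : ι → ℝ) (N : ι → Finset Site) (r : κ → ι → Site)
    (ζ : κ → ℂ) (f : ι → Site) (u : Site) (z' : ℂ) (δ : ℝ) (S : κ → Prop) (QA QB QC QE : Pt → ℝ)
    (κ0 : ℂ) (q Y : ℂ → ℂ) : Prop :=
  BLim Ω.toDom l a r ζ (cm f u) z' δ (fun k => bA (N k) (fun p => r p k) (cm f u k))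
    (fun k => bB (N k) (fun p => r p k) (cm f u k)) (fun k => bC (N k) (fun p => r p k) (cm f u k))
    (fun k => bE (N k) (fun p => r p k) (cm f u k)) S QA QB QC QE κ0 q Y

/-- The sequences of meshes, domains and disorders. -/
structure Sq (Ω : Dom) (l : Filter ι) (a : ι → ℝ) (N : ι → Finset Site) (r : κ → ι → Site)
    (ζ : κ → ℂ) : Prop where
  a0 : Tendsto a l (𝓝[>] 0)
  hN : Appr Ω.D l a N
  hr : ∀ p, Tendsto (fun k => pt (a k) (r p k)) l (𝓝 (ζ p))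
  inj : Function.Injective ζ
  mem : ∀ p, ζ p ∈ Ω.D

theorem Sq.apos {l : Filter ι} (h : Sq Ω l a N r ζ) : ∀ᶠ k in l, 0 < a k :=
  h.a0.eventually self_mem_nhdsWithin

theorem Sq.empty {l : Filter ι} (h : Sq Ω l a N r ζ) : Sq Ω l a N (v0 : Empty → ι → Site) w0 :=
  ⟨h.a0, h.hN, fun q => q.elim, fun q => q.elim, fun q => q.elim⟩

theorem Sq.cor {l : Filter ι} (h : Sq Ω l a N r ζ) (hz : z ∈ Ω.D)
    (hw : Tendsto (fun k => pt (a k) (w k)) l (𝓝 z)) (hu : Ty u s t) :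
    ∀ᶠ k in l, w k + u ∈ N k := by
  filter_upwards [h.hN.deep h.a0 hz hw 1] with k hk
  rcases hu.u with rfl | rfl | rfl <;> refine hk _ ?_ ?_ <;> simp

/-- Existence of the limit. -/
theorem bm_exists {l : Ultrafilter ι} (h : Sq Ω (l : Filter ι) a N r ζ) (hz' : z' ∈ Ω.D)
    (hne : ∀ p, ζ p ≠ z') (hf : Tendsto (fun k => pt (a k) (f k)) l (𝓝 z')) (hu : Ty u s t)
    (K : PKr u QA QB QC QE κ0) : ∃ δ S q Y, 0 < δ ∧
      Metric.closedBall z' (24 * δ) ⊆ VS S F0 ζ w0 ∧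
      BM Ω l a N r ζ f u z' δ S QA QB QC QE κ0 q Y := by
  obtain ⟨δ, G⟩ := P144T.C.exists_geo (Ω := Ω.toDom) h.inj h.mem hz' hne
  have hP : Pos Ω.toDom (l : Filter ι) a N r ζ (cm f u) z' δ :=
    ⟨h.a0, h.hN, h.hr, hf, G.inj, G.dia, G.δ0, G.ball, G.far⟩
  obtain ⟨S, hS⟩ := hP.pat
  have hex : ∀ k, ∃ Hs Hf : Site → ℝ, (cm f u k).1 ∈ N k →
      BD (N k) (fun p => r p k) (cm f u k) (bA (N k) (fun p => r p k) (cm f u k))
      (bB (N k) (fun p => r p k) (cm f u k)) (bC (N k) (fun p => r p k) (cm f u k))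
      (bE (N k) (fun p => r p k) (cm f u k)) Hs Hf := by
    intro k
    by_cases hk : (cm f u k).1 ∈ N k
    · obtain ⟨Hs, Hf, hB⟩ := exists_BD (N k) (fun p => r p k) (cm f u k) (hu.cnr _) hk
      exact ⟨Hs, Hf, fun _ => hB⟩
    · exact ⟨0, 0, fun h' => absurd h' hk⟩
  choose Hs Hf hB using hex
  obtain ⟨q, Y, hL⟩ := blim_exists hP ((h.cor hz' hf hu).mono fun k hk => hB k hk) K
    (Eventually.of_forall fun k => rfl) hS
  exact ⟨δ, S, q, Y, G.δ0, hS, hL⟩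

variable {l : Filter ι}

/-- The limit is a solution with a pole. -/
theorem bm_pol (hδ : 0 < δ) (hS : Metric.closedBall z' (24 * δ) ⊆ VS S F0 ζ w0)
    (hne : ∀ p, ζ p ≠ z') (hB : BM Ω l a N r ζ f u z' δ S QA QB QC QE κ0 q Y) :
    Pol Ω ζ z' (RS S F0 ζ w0 z' * κ0) q (RS S F0 ζ w0 z' * Y z') := by
  have hb : Metric.ball z' (24 * δ) ∈ 𝓝 z' := Metric.ball_mem_nhds _ (by positivity)
  refine pol_of (hS (Metric.mem_closedBall_self (by positivity))) hne hB.qd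
    (hB.yd.differentiableAt hb).continuousAt ?_ hB.bd fun p _ => hB.rs p
  filter_upwards [nhdsWithin_le_nhds hb, self_mem_nhdsWithin] with z h1 h2
  exact hB.qy z h1 h2

/-- The kernel at another point. -/
theorem bm_tgt (h : Sq Ω l a N r ζ) (hz : z ∈ (Ω.D \ {z'}) \ Mk ζ w0)
    (hw : Tendsto (fun k => pt (a k) (w k)) l (𝓝 z)) (hu : Ty u s t)
    (hB : BM Ω l a N r ζ f u' z' δ S QA QB QC QE κ0 q Y) :
    Tendsto (fun k => (a k)⁻¹ * (sg0 S (fun p => r p k) (cm f u' k) *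
      AL.Wf (N k) (rM fun p => r p k) [cm w u k, cm f u' k]) -
      phT u (q z / RR (a k) (fun p => r p k) (fun q => v0 q k) (pos (a k) (w k) s t))) l (𝓝 0) := by
  have hm := h.cor hz.1.1 hw hu
  rcases hu with ⟨rfl, rfl, rfl⟩ | ⟨rfl, rfl, rfl⟩ | ⟨rfl, rfl, rfl⟩
  · rw [phT_A]
    refine ((hB.slim.A _ hz).comp (seq_nf hw)).congr' ?_
    filter_upwards [hm] with k hk
    have e0 : w k + (0, 0) = w k := by ext <;> simp
    rw [e0] at hk
    simp only [Function.comp_apply]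
    rw [eA_Wf _ _ _ hk, cm, cm, e0]
  · rw [phT_B]
    refine ((hB.slim.B _ hz).comp (seq_nf hw)).congr' ?_
    filter_upwards [hm] with k hk
    have e0 : w k + (1, 0) = ((w k).1 + 1, (w k).2) := by ext <;> simp
    rw [e0] at hk
    simp only [Function.comp_apply]
    rw [eB_Wf _ _ _ hk, cm, cm, e0]
  · rw [phT_C]
    refine ((hB.slim.C _ hz).comp (seq_nf hw)).congr' ?_
    filter_upwards [hm] with k hk
    have e0 : w k + (0, 1) = ((w k).1, (w k).2 + 1) := by ext <;> simp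
    rw [e0] at hk
    simp only [Function.comp_apply]
    rw [eC_Wf _ _ _ hk, cm, cm, e0]

/-- The kernel at the face of the source. -/
theorem bm_self (h : Sq Ω l a N r ζ) (hz' : z' ∈ Ω.D) (hδ : 0 < δ)
    (hf : Tendsto (fun k => pt (a k) (f k)) l (𝓝 z')) (hu : Ty u s t)
    (hB : BM Ω l a N r ζ f u' z' δ S QA QB QC QE κ0 q Y) :
    Tendsto (fun k => (a k)⁻¹ * (sg0 S (fun p => r p k) (cm f u' k) *
      (gr S (fun p => r p k) ((f k).1 + s) *
      AL.Wf (N k) (rM fun p => r p k) [cm f u k, cm f u' k]) - qT u QA QB QC)) l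
      (𝓝 (phT u (Y z'))) := by
  have hm := h.cor hz' hf hu
  have hzo : z' ∈ Metric.ball z' (24 * δ) := Metric.mem_ball_self (by positivity)
  unfold qT
  rcases hu with ⟨rfl, rfl, rfl⟩ | ⟨rfl, rfl, rfl⟩ | ⟨rfl, rfl, rfl⟩
  · rw [phT_A, if_pos rfl]
    refine ((hB.A _ hzo).comp (seq_nf hf)).congr' ?_
    filter_upwards [hm] with k hk
    have e0 : f k + (0, 0) = f k := by ext <;> simp
    rw [e0] at hk
    simp only [Function.comp_apply]
    rw [eA_Wf _ _ _ hk, sub_self, show cm f (0, 0) k = (f k, f k) by rw [cm, e0]]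
  · rw [phT_B, if_neg (by simp), if_pos rfl]
    refine ((hB.B _ hzo).comp (seq_nf hf)).congr' ?_
    filter_upwards [hm] with k hk
    have e0 : f k + (1, 0) = ((f k).1 + 1, (f k).2) := by ext <;> simp
    rw [e0] at hk
    simp only [Function.comp_apply]
    rw [eB_Wf _ _ _ hk, sub_self,
      show cm f (1, 0) k = (((f k).1 + 1, (f k).2), f k) by rw [cm, e0]]
  · rw [phT_C, if_neg (by simp), if_neg (by simp)]
    refine ((hB.C _ hzo).comp (seq_nf hf)).congr' ?_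
    filter_upwards [hm] with k hk
    have e0 : f k + (0, 1) = ((f k).1, (f k).2 + 1) := by ext <;> simp
    rw [e0] at hk
    simp only [Function.comp_apply]
    rw [eC_Wf _ _ _ hk, sub_self,
      show cm f (0, 1) k = (((f k).1, (f k).2 + 1), f k) by rw [cm, e0]]

/-- The component of the regular part in the direction of the source vanishes. -/
theorem bm_asy [NeBot l] (h : Sq Ω l a N r ζ) (hz' : z' ∈ Ω.D) (hδ : 0 < δ)
    (hf : Tendsto (fun k => pt (a k) (f k)) l (𝓝 z')) (hu : Ty u s t)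
    (K : PKr u QA QB QC QE κ0) (hB : BM Ω l a N r ζ f u z' δ S QA QB QC QE κ0 q Y) :
    (et u * Y z').re = 0 := by
  rw [← phT_eq]
  refine tendsto_nhds_unique (bm_self h hz' hδ hf hu hB) (tendsto_const_nhds.congr fun k => ?_)
  rw [P144T.C.JF.src_WfL, qT_self hu K (f k), hu.sg0, ← mul_assoc (gr _ _ _), gr_sq, one_mul,
    sub_self, mul_zero]

/-- The roots at a corner. -/
theorem rr_src (h : Sq Ω l a N r ζ) (hS : z' ∈ VS S F0 ζ w0)
    (hf : Tendsto (fun k => pt (a k) (f k)) l (𝓝 z')) (hu : Ty u s t) :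
    Tendsto (fun k => (gr S (fun p => r p k) ((f k).1 + s) : ℂ) *
      RR (a k) (fun p => r p k) (fun q => v0 q k) (pos (a k) (f k) s t)) l
      (𝓝 (RS S F0 ζ w0 z')) := by
  refine (rs_seq h.a0 h.hr hf hS s t).congr' ?_
  filter_upwards [h.apos] with k hk
  rw [RR_eq S F0 hk _ _ _ hu.hs t, gr_eq, ← mul_assoc, gr_C, one_mul]

theorem exists_pat (hne : ∀ p, ζ p ≠ z) : ∃ S, z ∈ VS S F0 ζ w0 := by
  obtain ⟨S', S'', hS'⟩ := H170.exists_pattern (ζ := ζ) (ω := w0) (z := z)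
    (fun p => (hne p).symm) (fun q => q.elim)
  have e'' : S'' = F0 := funext fun q => q.elim
  exact ⟨S', e'' ▸ hS'⟩

variable {m : ℕ} {y : Fin m → ℂ} {e : EF m}

/-- **Existence of the data at the energies.** -/
theorem exists_isE {l : Ultrafilter ι} (hL : Lin Ω) (h : Sq Ω (l : Filter ι) a N r ζ)
    (hy : ∀ i, y i ∈ Ω.D) (hne : ∀ i p, ζ p ≠ y i) {v : Fin m → ι → Site}
    (hv : ∀ i, Tendsto (fun k => pt (a k) (v i k)) l (𝓝 (y i))) : ∃ e, IsE Ω ζ y e := by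
  choose R hR using fun i => H365.exists_sqrt (∏ p, (y i - ζ p))
  refine isE_of hL h.inj hy hne R (fun i => by rw [pow_two, hR]) fun i η hη => ?_
  obtain ⟨u, s, t, hu, rfl⟩ := exists_ty hη
  obtain ⟨QA, QB, QC, QE, K⟩ := exists_pk hu.u
  obtain ⟨δ, S, q, Y, hδ, hS, hB⟩ := bm_exists h (hy i) (hne i) (hv i) hu K
  have h1 := bm_pol hδ hS (hne i) hB
  have h2 := bm_asy h (hy i) hδ (hv i) hu K hB
  rcases sq_eq_sq_iff_eq_or_eq_neg.1 ((RS_two S ζ (y i)).trans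
    ((hR i).symm.trans (pow_two _).symm)) with e1 | e1
  · rw [e1] at h1
    exact ⟨_, _, h1, h2⟩
  · have h3 := pol_neg h1
    rw [e1, neg_mul, neg_mul, neg_neg, neg_neg] at h3
    exact ⟨_, _, h3, h2⟩

/-- **Two energies.** -/
theorem k3_lim {l : Ultrafilter ι} (h : Sq Ω (l : Filter ι) a N r ζ) (hE : IsE Ω ζ y e)
    {i j : Fin m} (hij : i ≠ j) (hy : y i ≠ y j) (hi : y i ∈ Ω.D) (hj : y j ∈ Ω.D)
    (ni : ∀ p, ζ p ≠ y i) (nj : ∀ p, ζ p ≠ y j)
    (hw : Tendsto (fun k => pt (a k) (w k)) l (𝓝 (y i)))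
    (hf : Tendsto (fun k => pt (a k) (f k)) l (𝓝 (y j))) (hu : Ty u s t) (hu' : Ty u' s' t')
    (Y₀ : Fin m → ℂ → ℂ) :
    Tendsto (fun k => RR (a k) (fun p => r p k) (fun q => v0 q k) (pos (a k) (w k) s t) *
      RR (a k) (fun p => r p k) (fun q => v0 q k) (pos (a k) (f k) s' t') *
      (AL.Wf (N k) (rM fun p => r p k) [cm w u k, cm f u' k] : ℂ) / a k) l
      (𝓝 (e.R i * e.R j * (kE e y Y₀ i (et u) j (et u') : ℝ))) := by
  obtain ⟨QA, QB, QC, QE, K⟩ := exists_pk hu'.u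
  obtain ⟨δ, S, q, Y, hδ, hS, hB⟩ := bm_exists h hj nj hf hu' K
  obtain ⟨-, σ, s2, e1, e2⟩ := isE_val hE h.inj hj nj (RS_two S ζ (y j)) (bm_pol hδ hS nj hB)
  obtain ⟨S', hS'⟩ := exists_pat ni
  have hz : y i ∈ (Ω.D \ {y j}) \ Mk ζ w0 :=
    ⟨⟨hi, hy⟩, notMem_Mk.2 ⟨fun p => (ni p).symm, fun q => q.elim⟩⟩
  have h2 := rr_mul h.a0 h.hr hw hS' hu.hs (bm_tgt h hz hw hu hB)
  have h3 := (rr_src h (hS (Metric.mem_closedBall_self (by positivity))) hf hu').mul h2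
  have e3 : RS S F0 ζ w0 (y j) * (RS S' F0 ζ w0 (y i) *
      (phT u (q (y i) / RS S' F0 ζ w0 (y i)) : ℂ)) =
      e.R i * e.R j * (kE e y Y₀ i (et u) j (et u') : ℝ) := by
    rw [sgn_inv _ ((RS_two S' ζ (y i)).trans (hE.hR i).symm), e1, e2 _ hi hy, kE, if_neg hij,
      ← phT_eq, mul_div_assoc, ← Complex.real_smul (x := σ) (z := _ / _), map_smul, smul_eq_mul]
    have s3 : (σ : ℂ) * σ = 1 := by exact_mod_cast s2
    push_cast
    linear_combination (e.R j * e.R i * (phT u (e.q j (et u') (y i) / e.R i) : ℂ)) * s3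
  rw [e3] at h3
  refine h3.congr fun k => ?_
  rw [hu'.sg0]
  have h5 := gr_C S (fun p => r p k) ((f k).1 + s')
  push_cast
  rw [div_eq_mul_inv]
  linear_combination (RR (a k) (fun p => r p k) (fun q => v0 q k) (pos (a k) (w k) s t) *
    RR (a k) (fun p => r p k) (fun q => v0 q k) (pos (a k) (f k) s' t') *
    (AL.Wf (N k) (rM fun p => r p k) [cm w u k, cm f u' k] : ℂ) * (a k : ℂ)⁻¹) * h5

/-- The sign of an energy. -/
theorem sgn_lim (h : Sq Ω l a N r ζ) (hS : z' ∈ VS S F0 ζ w0)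
    (hf : Tendsto (fun k => pt (a k) (f k)) l (𝓝 z')) (hu : Ty u s t) :
    ∀ᶠ k in l, ∏ p, AL.ep (f k, f k) (r p k, r p k) * AL.ep (cm f u k) (r p k, r p k) =
      gr S (fun p => r p k) ((f k).1 + s) * gr S (fun p => r p k) ((f k).1 + 1 / 4) := by
  classical
  have hT1 : ∀ k, AL.Typ (f k) (f k) (1 / 4) := fun k => Or.inl ⟨rfl, rfl⟩
  have hT2 : ∀ k, AL.Typ (f k + u) (f k) s := fun k => hu.typ _
  have key : ∀ p, ∀ᶠ k in l, AL.ep (f k, f k) (r p k, r p k) * AL.ep (cm f u k) (r p k, r p k) =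
      (if S p then H170.sg ((f k).1 + s - (r p k).1 - 1 / 2) else 1) *
      (if S p then H170.sg ((f k).1 + 1 / 4 - (r p k).1 - 1 / 2) else 1) := by
    intro i
    by_cases hi : S i
    · have h2 : (z' - ζ i).re ≠ 0 ∨ 0 < (z' - ζ i).im := Or.inr ((hS.1 i).1 hi)
      filter_upwards [AL.ep_up h.a0 hf (h.hr i) hT1 h2, AL.ep_up h.a0 hf (h.hr i) hT2 h2]
        with k g1 g2
      rw [cm, g1, g2, if_pos hi, if_pos hi]
      ring
    · have h2 := (hS.1 i).2 hi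
      filter_upwards [AL.ep_dn h.a0 hf (h.hr i) hT1 h2, AL.ep_dn h.a0 hf (h.hr i) hT2 h2]
        with k g1 g2
      have e : H170.sg (((f k).1 : ℝ) + 1 / 4 - (r i k).1) =
          H170.sg (((f k).1 : ℝ) + s - (r i k).1) := by
        have hs' := hu.hs
        rcases lt_or_ge (f k).1 (r i k).1 with h1 | h1
        · have h' : ((f k).1 : ℝ) + 1 ≤ (r i k).1 := by exact_mod_cast h1
          rw [H170.sg_neg (by linarith),
            H170.sg_neg (by rcases hs' with hs | hs <;> rw [hs] <;> linarith)]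
        · have h' : ((r i k).1 : ℝ) ≤ (f k).1 := by exact_mod_cast h1
          rw [H170.sg_pos (by linarith),
            H170.sg_pos (by rcases hs' with hs | hs <;> rw [hs] <;> linarith)]
      rw [cm, g1, g2, e, neg_mul_neg, H170.sg_sq, if_neg hi, if_neg hi, one_mul]
  filter_upwards [eventually_all.2 key] with k hk
  unfold gr gs
  simp only [Finset.univ_eq_empty, Finset.prod_empty, mul_one]
  rw [← prod_mul_distrib]
  exact prod_congr rfl fun i _ => hk i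

/-- **The two corners of an energy.** -/
theorem k4_lim {l : Ultrafilter ι} (h : Sq Ω (l : Filter ι) a N r ζ) (hE : IsE Ω ζ y e)
    {e₀ : EF m} (hE₀ : IsE Ω w0 y e₀) {i : Fin m} (hi : y i ∈ Ω.D) (ni : ∀ p, ζ p ≠ y i)
    (hf : Tendsto (fun k => pt (a k) (f k)) l (𝓝 (y i))) (hu : Ty u s t) :
    Tendsto (fun k => RR (a k) (fun p => r p k) (fun q => v0 q k)
      (pos (a k) (f k) (1 / 4) (1 / 4)) *
      RR (a k) (fun p => r p k) (fun q => v0 q k) (pos (a k) (f k) s t) *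
      ((AL.Wf (N k) (rM fun p => r p k) [(f k, f k), cm f u k] -
        (∏ p, AL.ep (f k, f k) (r p k, r p k) * AL.ep (cm f u k) (r p k, r p k)) *
        AL.Wf (N k) 0 [(f k, f k), cm f u k] : ℝ) : ℂ) / a k) l
      (𝓝 (e.R i * e.R i * (kE e y e₀.Y i 1 i (et u) : ℝ))) := by
  obtain ⟨QA, QB, QC, QE, K⟩ := exists_pk hu.u
  obtain ⟨δ, S, q, Y, hδ, hS, hB⟩ := bm_exists h hi ni hf hu K
  obtain ⟨δ₀, S₀, q₀, Y₀, hδ₀, hS₀, hB₀⟩ := bm_exists h.empty hi (fun q => q.elim) hf hu K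
  obtain ⟨e1, σ, s2, e2, -⟩ := isE_val hE h.inj hi ni (RS_two S ζ (y i)) (bm_pol hδ hS ni hB)
  obtain ⟨e3, -⟩ := isE_val hE₀ h.empty.inj hi (fun q => q.elim) (RS_two S₀ w0 (y i))
    (bm_pol hδ₀ hS₀ (fun q => q.elim) hB₀)
  have hz := hS (Metric.mem_closedBall_self (by positivity))
  have h1 := (bm_self h hi hδ hf ty_A hB).sub (bm_self h.empty hi hδ₀ hf ty_A hB₀)
  have h4 := ((rr_src h hz hf ty_A).mul (rr_src h hz hf hu)).mul
    ((Complex.continuous_ofReal.tendsto _).comp h1)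
  have e4 : RS S F0 ζ w0 (y i) * RS S F0 ζ w0 (y i) *
      ((phT (0, 0) (Y (y i)) - phT (0, 0) (Y₀ (y i)) : ℝ) : ℂ) =
      e.R i * e.R i * (kE e y e₀.Y i 1 i (et u) : ℝ) := by
    rw [← pow_two, RS_two, ← hE.hR i, pow_two, kE, if_pos rfl, ← map_sub, phT_eq, et_A, e1, e3]
  rw [e4] at h4
  refine h4.congr' ?_
  filter_upwards [sgn_lim h hz hf hu] with k g1
  have g0 : ∀ t : ℝ, gr S₀ (fun p => v0 p k) t = 1 := fun t => by
    unfold gr gs
    simp
  have e0 : cm f (0, 0) k = (f k, f k) := by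
    rw [cm]
    congr 1
    ext <;> simp
  simp only [Function.comp_apply]
  rw [g1, hu.sg0, hu.sg0, g0, g0, rM_empty, e0]
  have s1 := gr_C S (fun p => r p k) ((f k).1 + 1 / 4)
  have s2 := gr_C S (fun p => r p k) ((f k).1 + s)
  generalize AL.Wf (N k) (rM fun p => r p k) [(f k, f k), cm f u k] = W1
  generalize AL.Wf (N k) 0 [(f k, f k), cm f u k] = W2
  generalize gr S (fun p => r p k) ((f k).1 + 1 / 4) = g at s1 ⊢
  generalize gr S (fun p => r p k) ((f k).1 + s) = g' at s2 ⊢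
  generalize RR (a k) (fun p => r p k) (fun q => v0 q k) (pos (a k) (f k) (1 / 4) (1 / 4)) = ρ1
  generalize RR (a k) (fun p => r p k) (fun q => v0 q k) (pos (a k) (f k) s t) = ρ2
  push_cast
  rw [div_eq_mul_inv]
  linear_combination (ρ1 * ρ2 * (a k : ℂ)⁻¹ * W1 * (g' : ℂ) * g') * s1 +
    (ρ1 * ρ2 * (a k : ℂ)⁻¹ * W1) * s2

end

end Vale.Agent.N144.KT
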