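import Vale.Agent.N144.C.Defs

/-!
Solutions with a simple pole: linear combinations, uniqueness, existence of the data at the
energies from the three lattice sources.
-/

namespace Vale.Agent.N144.KT

open Filter Topology Finset Vale.Agent.P144 Vale.Agent.N144.C
open Vale.Agent.P144.H170 (F2 gq PP PZ Mk RS VS RS_sq RS_ne RS_diff PP_eqZ PZ_cont PZ_ne F2_neg
  gq_neg phA phB phC phA_apply phB_apply phC_apply)
open Vale.Agent.P144.H365 (ResNN)
open Vale.Agent.P144.H135 (w0 kap F0 kx ky phT phT_A phT_B phT_C)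
open Vale.Agent.P144Y (Dom)

section

variable {κ κ' : Type} [Fintype κ] [Fintype κ']

theorem res_tend {ζ : κ → ℂ} {ω : κ' → ℂ} {q : ℂ → ℂ} {p : κ} (h1 : ∀ p' ≠ p, ζ p' ≠ ζ p)
    (h2 : ∀ q, ω q ≠ ζ p) (hc : ContinuousAt q (ζ p)) :
    Tendsto (fun z => (z - ζ p) * gq ζ ω q z) (𝓝[≠] ζ p)
      (𝓝 ((⟨-1 / 2, 1 / 2⟩ : ℂ) / PZ ζ ω p (ζ p) * q (ζ p) ^ 2)) := by
  have h3 : ContinuousAt (fun z => (⟨-1 / 2, 1 / 2⟩ : ℂ) / PZ ζ ω p z * q z ^ 2) (ζ p) :=
    (continuousAt_const.div (PZ_cont p).continuousAt (PZ_ne h1 h2)).mul (hc.pow 2)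
  refine (h3.tendsto.mono_left nhdsWithin_le_nhds).congr' ?_
  filter_upwards [self_mem_nhdsWithin] with z hz
  have hz' : z - ζ p ≠ 0 := sub_ne_zero.2 hz
  unfold gq
  rw [PP_eqZ p]
  by_cases hp : PZ ζ ω p z = 0
  · rw [hp]; simp
  · field_simp

theorem im_zero {z : ℂ} {c : ℝ} (hc : 0 ≤ c) (h : z ^ 2 = c) : z.im = 0 := by
  have h1 := congrArg Complex.re h
  have h2 := congrArg Complex.im h
  simp only [pow_two, Complex.mul_re, Complex.mul_im, Complex.ofReal_re, Complex.ofReal_im] at h1 h2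
  by_contra hne
  have h3 : z.re = 0 := by
    have : z.re * z.im = 0 := by linarith
    exact (mul_eq_zero.1 this).resolve_right hne
  rw [h3] at h1
  have := mul_self_pos.2 hne
  linarith

/-- The sign condition of the residues is closed under real linear combinations. -/
theorem res_lin {ζ : κ → ℂ} {ω : κ' → ℂ} {q₁ q₂ : ℂ → ℂ} {p : κ} (h1 : ∀ p' ≠ p, ζ p' ≠ ζ p)
    (h2 : ∀ q, ω q ≠ ζ p) (c1 : ContinuousAt q₁ (ζ p)) (c2 : ContinuousAt q₂ (ζ p))
    (r1 : ResNN ζ ω q₁ (ζ p)) (r2 : ResNN ζ ω q₂ (ζ p)) (s t : ℝ) :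
    ResNN ζ ω (fun z => s * q₁ z + t * q₂ z) (ζ p) := by
  obtain ⟨d1, hd1, t1⟩ := r1
  obtain ⟨d2, hd2, t2⟩ := r2
  have e1 := tendsto_nhds_unique (res_tend h1 h2 c1) t1
  have e2 := tendsto_nhds_unique (res_tend h1 h2 c2) t2
  have c3 : ContinuousAt (fun z => s * q₁ z + t * q₂ z) (ζ p) :=
    (continuousAt_const.mul c1).add (continuousAt_const.mul c2)
  have t3 := res_tend h1 h2 c3
  obtain ⟨w, hw⟩ := H365.exists_sqrt ((⟨-1 / 2, 1 / 2⟩ : ℂ) / PZ ζ ω p (ζ p))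
  rw [← hw] at e1 e2 t3
  have i1 : (w * q₁ (ζ p)).im = 0 := im_zero hd1 (by rw [← e1]; ring)
  have i2 : (w * q₂ (ζ p)).im = 0 := im_zero hd2 (by rw [← e2]; ring)
  refine ⟨(s * (w * q₁ (ζ p)).re + t * (w * q₂ (ζ p)).re) ^ 2, sq_nonneg _, ?_⟩
  have f1 : w * q₁ (ζ p) = ((w * q₁ (ζ p)).re : ℂ) := Complex.ext rfl (by rw [i1]; rfl)
  have f2 : w * q₂ (ζ p) = ((w * q₂ (ζ p)).re : ℂ) := Complex.ext rfl (by rw [i2]; rfl)
  generalize (w * q₁ (ζ p)).re = x1 at f1 ⊢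
  generalize (w * q₂ (ζ p)).re = x2 at f2 ⊢
  have e3 : w * w * (s * q₁ (ζ p) + t * q₂ (ζ p)) ^ 2 = (((s * x1 + t * x2) ^ 2 : ℝ) : ℂ) := by
    push_cast
    rw [← f1, ← f2]
    ring
  rwa [e3] at t3

variable {Ω : Dom} {ζ : κ → ℂ} {z' r r₁ r₂ c c₁ c₂ : ℂ} {q q₁ q₂ : ℂ → ℂ}

theorem pol_cont (h : Pol Ω ζ z' r q c) {z : ℂ} (hz : z ∈ Ω.D) (hne : z ≠ z') :
    ContinuousAt q z :=
  (h.qd.differentiableAt ((Ω.op.sdiff isClosed_singleton).mem_nhds ⟨hz, hne⟩)).continuousAt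

/-- Real linear combinations. -/
theorem pol_lin (hL : Lin Ω) (hinj : Function.Injective ζ) (hne : ∀ p, ζ p ≠ z')
    (h1 : Pol Ω ζ z' r₁ q₁ c₁) (h2 : Pol Ω ζ z' r₂ q₂ c₂) (s t : ℝ) :
    Pol Ω ζ z' (s * r₁ + t * r₂) (fun z => s * q₁ z + t * q₂ z) (s * c₁ + t * c₂) := by
  refine ⟨(h1.qd.const_mul _).add (h2.qd.const_mul _), ?_, hL _ _ _ _ _ _ s t h1.bd h2.bd,
    fun p hp => res_lin (fun p' hp' h => hp' (hinj h)) (fun q => q.elim)
      (pol_cont h1 hp (hne p)) (pol_cont h2 hp (hne p)) (h1.rs p hp) (h2.rs p hp) s t⟩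
  have h3 := (h1.loc.const_mul (s : ℂ)).add (h2.loc.const_mul (t : ℂ))
  have e : (s : ℂ) * (c₁ + r₁ * sh ζ z') + t * (c₂ + r₂ * sh ζ z') =
      s * c₁ + t * c₂ + (s * r₁ + t * r₂) * sh ζ z' := by ring
  rw [e] at h3
  refine h3.congr fun z => ?_
  ring

/-- Change of the sign. -/
theorem pol_neg (h : Pol Ω ζ z' r q c) : Pol Ω ζ z' (-r) (fun z => -q z) (-c) := by
  refine ⟨h.qd.neg, ?_, by rw [F2_neg]; exact h.bd, fun p hp => ?_⟩
  · have h3 := h.loc.neg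
    have e : -(c + r * sh ζ z') = -c + -r * sh ζ z' := by ring
    rw [e] at h3
    refine h3.congr fun z => ?_
    ring
  · obtain ⟨d, hd, hl⟩ := h.rs p hp
    exact ⟨d, hd, by rw [gq_neg]; exact hl⟩

omit [Fintype κ] in
theorem inj_w0 (hinj : Function.Injective ζ) : Function.Injective (Sum.elim ζ w0) := by
  rintro (x | x) (y | y) hxy
  · exact congrArg Sum.inl (hinj hxy)
  · exact y.elim
  · exact x.elim
  · exact x.elim

/-- **Uniqueness.** -/
theorem pol_unique (hinj : Function.Injective ζ) (hz : z' ∈ Ω.D) (hne : ∀ p, ζ p ≠ z')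
    (h1 : Pol Ω ζ z' r q₁ c₁) (h2 : Pol Ω ζ z' r q₂ c₂) :
    (∀ z ∈ Ω.D, z ≠ z' → q₁ z = q₂ z) ∧ c₁ = c₂ := by
  classical
  have ht : Tendsto (fun z => q₁ z - q₂ z) (𝓝[≠] z') (𝓝 (c₁ - c₂)) := by
    have h3 := h1.loc.sub h2.loc
    have e : c₁ + r * sh ζ z' - (c₂ + r * sh ζ z') = c₁ - c₂ := by ring
    rw [e] at h3
    refine h3.congr fun z => ?_
    ring
  set Q := Function.update (fun z => q₁ z - q₂ z) z' (c₁ - c₂) with hQ
  have he : ∀ z, z ≠ z' → Q z = q₁ z - q₂ z := fun z h => by rw [hQ, Function.update_of_ne h]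
  have hd : DifferentiableOn ℂ Q Ω.D := by
    refine (Complex.differentiableOn_compl_singleton_and_continuousAt_iff
      (Ω.op.mem_nhds hz)).1 ⟨?_, continuousAt_update_same.2 ht⟩
    exact (h1.qd.sub h2.qd).congr fun z hz => he z hz.2
  have h0 := Ω.uniX _ _ ζ w0 Q q₁ q₂ {z'} (fun p => p.elim) (inj_w0 hinj) (Set.finite_singleton _)
    (Set.singleton_subset_iff.2 hz) (fun z h => by
      rw [Set.mem_singleton_iff.1 h]
      rintro (⟨p, hp⟩ | ⟨p, -⟩)
      · exact hne p hp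
      · exact p.elim) hd (fun z _ h => he z h)
    (fun p hp => pol_cont h1 hp (hne p)) (fun p hp => pol_cont h2 hp (hne p)) h1.bd h2.bd h1.rs
    h2.rs fun p => p.elim
  refine ⟨fun z hz h => sub_eq_zero.1 ((he z h).symm.trans (h0 z hz)), ?_⟩
  have h4 := h0 z' hz
  rw [hQ, Function.update_self] at h4
  exact sub_eq_zero.1 h4

theorem RS_two (S : κ → Prop) (ζ : κ → ℂ) (z : ℂ) : RS S F0 ζ w0 z ^ 2 = ∏ p, (z - ζ p) := by
  rw [pow_two, RS_sq, Fintype.prod_empty (fun q => z - w0 q), mul_one]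

theorem RS_der {S : κ → Prop} (hS : z' ∈ VS S F0 ζ w0) (hne : ∀ p, ζ p ≠ z') :
    HasDerivAt (RS S F0 ζ w0) (RS S F0 ζ w0 z' * sh ζ z') z' := by
  have hd := RS_diff hS
  have h0 := RS_ne hS
  have e : (fun z => RS S F0 ζ w0 z ^ 2) = fun z => ∏ p, (z - ζ p) := funext (RS_two S ζ)
  have h1 : logDeriv (fun z => RS S F0 ζ w0 z ^ 2) z' = 2 * logDeriv (RS S F0 ζ w0) z' := by
    have := logDeriv_fun_pow hd 2
    simpa using this
  have h2 : logDeriv (fun z => ∏ p, (z - ζ p)) z' = ∑ p, (z' - ζ p)⁻¹ := by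
    rw [logDeriv_prod (f := fun p z => z - ζ p) (fun p _ => sub_ne_zero.2 (hne p).symm)
      (fun p _ => by fun_prop)]
    refine sum_congr rfl fun p _ => ?_
    rw [logDeriv_apply]
    simp
  rw [e, h2, logDeriv_apply] at h1
  have h3 : deriv (RS S F0 ζ w0) z' = RS S F0 ζ w0 z' * sh ζ z' := by
    unfold sh
    rw [h1]
    field_simp
  rw [← h3]
  exact hd.hasDerivAt

/-- The local form of the limits of the lattice spinors gives a solution with a pole. -/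
theorem pol_of {S : κ → Prop} {κ0 : ℂ} {y : ℂ → ℂ} (hS : z' ∈ VS S F0 ζ w0) (hne : ∀ p, ζ p ≠ z')
    (qd : DifferentiableOn ℂ q (Ω.D \ {z'})) (hy : ContinuousAt y z')
    (qy : ∀ᶠ z in 𝓝[≠] z', q z = RS S F0 ζ w0 z * (κ0 / (z - z') + y z))
    (bd : Ω.Bd (F2 ζ w0 q)) (rs : ∀ p, ζ p ∈ Ω.D → ResNN ζ w0 q (ζ p)) :
    Pol Ω ζ z' (RS S F0 ζ w0 z' * κ0) q (RS S F0 ζ w0 z' * y z') := by
  refine ⟨qd, ?_, bd, rs⟩
  have h1 := (hasDerivAt_iff_tendsto_slope.1 (RS_der hS hne)).const_mul κ0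
  have h2 := ((RS_diff hS).continuousAt.tendsto.mul hy.tendsto).mono_left
    (nhdsWithin_le_nhds (s := {z'}ᶜ))
  have h3 := h1.add h2
  have e : κ0 * (RS S F0 ζ w0 z' * sh ζ z') + RS S F0 ζ w0 z' * y z' =
      RS S F0 ζ w0 z' * y z' + RS S F0 ζ w0 z' * κ0 * sh ζ z' := by ring
  rw [e] at h3
  refine h3.congr' ?_
  filter_upwards [qy] with z hz
  rw [hz, slope_def_field]
  ring

/-- The source solutions are unique up to the sign. -/
theorem ssol_unique {ω : ℂ} (hω : ω ∈ Ω.D) (hinj : Function.Injective ζ) (hne : ∀ p, ζ p ≠ ω)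
    (h1 : SSol Ω ζ ω q₁) (h2 : SSol Ω ζ ω q₂) :
    (∀ z ∈ Ω.D, q₁ z = q₂ z) ∨ ∀ z ∈ Ω.D, q₁ z = -q₂ z := by
  have hinj' : Function.Injective (Sum.elim ζ fun _ : Unit => ω) := by
    rintro (x | x) (y | y) h
    · exact congrArg Sum.inl (hinj h)
    · exact absurd h (hne x)
    · exact absurd h.symm (hne y)
    · rfl
  have key : ∀ q₃ : ℂ → ℂ, DifferentiableOn ℂ q₃ Ω.D → Ω.Bd (F2 ζ (fun _ : Unit => ω) q₃) →
      (∀ p, ζ p ∈ Ω.D → ResNN ζ (fun _ : Unit => ω) q₃ (ζ p)) → q₁ ω = q₃ ω →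
      ∀ z ∈ Ω.D, q₁ z = q₃ z := fun q₃ d3 b3 r3 e z hz =>
    sub_eq_zero.1 (Ω.uniX _ _ ζ (fun _ : Unit => ω) (fun z => q₁ z - q₃ z) q₁ q₃ ∅ (fun _ => hω)
      hinj' Set.finite_empty (Set.empty_subset _) (fun z hz => absurd hz (Set.notMem_empty z))
      (h1.diff.sub d3) (fun _ _ _ => rfl)
      (fun p hp => (h1.diff.differentiableAt (Ω.op.mem_nhds hp)).continuousAt)
      (fun p hp => (d3.differentiableAt (Ω.op.mem_nhds hp)).continuousAt) h1.bd b3 h1.res r3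
      (fun _ => sub_eq_zero.2 e) z hz)
  have hsq : q₁ ω ^ 2 = q₂ ω ^ 2 := by
    have h := h1.src.trans h2.src.symm
    refine mul_left_cancel₀ (mul_ne_zero ?_ H170.one_sub_I_ne) h
    have : (Real.pi : ℂ) ≠ 0 := by exact_mod_cast Real.pi_ne_zero
    exact div_ne_zero this two_ne_zero
  rcases sq_eq_sq_iff_eq_or_eq_neg.1 hsq with h | h
  · exact Or.inl (key q₂ h2.diff h2.bd h2.res h)
  · refine Or.inr (key (fun z => -q₂ z) h2.diff.neg (by rw [F2_neg]; exact h2.bd) (fun p hp => ?_) h)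
    obtain ⟨d, hd, hl⟩ := h2.res p hp
    exact ⟨d, hd, by rw [gq_neg]; exact hl⟩

variable {m : ℕ} {y : Fin m → ℂ} {e : EF m}

theorem R_ne (h : IsE Ω ζ y e) {l : Fin m} (hne : ∀ p, ζ p ≠ y l) : e.R l ≠ 0 := fun h0 => by
  have h1 := h.hR l
  rw [h0, zero_pow two_ne_zero] at h1
  exact prod_ne_zero_iff.2 (fun p _ => sub_ne_zero.2 (hne p).symm) h1.symm

/-- The bilinear form of the regular parts is antisymmetric. -/
theorem isE_anti (h : IsE Ω ζ y e) (l : Fin m) (η η' : ℂ) :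
    (η * e.Y l η').re = -(η' * e.Y l η).re := by
  have h1 := h.asy l (((1 : ℝ) : ℂ) * η + ((1 : ℝ) : ℂ) * η')
  rw [h.linY] at h1
  have h2 := h.asy l η
  have h3 := h.asy l η'
  simp only [Complex.ofReal_one, one_mul, add_mul, mul_add, Complex.add_re] at h1
  linarith

/-- A solution with a pole is the one of the data, up to the sign of the root. -/
theorem isE_val (h : IsE Ω ζ y e) (hinj : Function.Injective ζ) {l : Fin m} (hz : y l ∈ Ω.D)
    (hne : ∀ p, ζ p ≠ y l) {R η Y : ℂ} (hR : R ^ 2 = ∏ p, (y l - ζ p))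
    (hP : Pol Ω ζ (y l) (R * (η * -kap)) q (R * Y)) : Y = e.Y l η ∧ ∃ σ : ℝ, σ * σ = 1 ∧
      R = σ * e.R l ∧ ∀ z ∈ Ω.D, z ≠ y l → q z = σ * e.q l η z := by
  have h0 := R_ne h hne
  rcases sq_eq_sq_iff_eq_or_eq_neg.1 (hR.trans (h.hR l).symm) with e1 | e1
  · rw [e1] at hP
    obtain ⟨k1, k2⟩ := pol_unique hinj hz hne hP (h.pol l η)
    exact ⟨mul_left_cancel₀ h0 k2, 1, by norm_num, by simp [e1], fun z a b => by simp [k1 z a b]⟩
  · rw [e1, neg_mul, neg_mul] at hP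
    obtain ⟨k1, k2⟩ := pol_unique hinj hz hne hP (pol_neg (h.pol l η))
    exact ⟨mul_left_cancel₀ h0 (neg_injective k2), -1, by norm_num, by simp [e1],
      fun z a b => by simp [k1 z a b]⟩

theorem s2_ne : (√2 : ℝ) ≠ 0 := by positivity

theorem s2_sq : (√2 : ℝ) * √2 = 2 := Real.mul_self_sqrt (by norm_num)

theorem eta_eq (η : ℂ) : η = ((η.re - η.im : ℝ) : ℂ) * 1 + ((√2 * η.im : ℝ) : ℂ) * eh 0 := by
  have h := s2_ne
  apply Complex.ext
  · simp only [eh, if_true, Complex.add_re, Complex.mul_re, Complex.ofReal_re, Complex.ofReal_im,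
      Complex.one_re, Complex.one_im]
    field_simp
    ring
  · simp only [eh, if_true, Complex.add_im, Complex.mul_im, Complex.ofReal_re, Complex.ofReal_im,
      Complex.one_re, Complex.one_im]
    field_simp
    ring

/-- **The data at the energies** from the solutions for the three types of corners. -/
theorem isE_of (hL : Lin Ω) (hinj : Function.Injective ζ) (hy : ∀ l, y l ∈ Ω.D)
    (hne : ∀ l p, ζ p ≠ y l) (R : Fin m → ℂ) (hR : ∀ l, R l ^ 2 = ∏ p, (y l - ζ p))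
    (h : ∀ l η, η = 1 ∨ η = eh 0 ∨ η = eh 1 → ∃ q Y,
      Pol Ω ζ (y l) (R l * (η * -kap)) q (R l * Y) ∧ (η * Y).re = 0) : ∃ e, IsE Ω ζ y e := by
  choose qA YA hA aA using fun l => h l 1 (Or.inl rfl)
  choose qB YB hB aB using fun l => h l (eh 0) (Or.inr (Or.inl rfl))
  have hP : ∀ l η, Pol Ω ζ (y l) (R l * (η * -kap))
      (fun z => ((η.re - η.im : ℝ) : ℂ) * qA l z + ((√2 * η.im : ℝ) : ℂ) * qB l z)
      (R l * (((η.re - η.im : ℝ) : ℂ) * YA l + ((√2 * η.im : ℝ) : ℂ) * YB l)) := by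
    intro l η
    have h1 := pol_lin hL hinj (hne l) (hA l) (hB l) (η.re - η.im) (√2 * η.im)
    have e1 : ((η.re - η.im : ℝ) : ℂ) * (R l * (1 * -kap)) +
        ((√2 * η.im : ℝ) : ℂ) * (R l * (eh 0 * -kap)) = R l * (η * -kap) := by
      conv_rhs => rw [eta_eq η]
      ring
    have e2 : ((η.re - η.im : ℝ) : ℂ) * (R l * YA l) + ((√2 * η.im : ℝ) : ℂ) * (R l * YB l) =
        R l * (((η.re - η.im : ℝ) : ℂ) * YA l + ((√2 * η.im : ℝ) : ℂ) * YB l) := by ring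
    rwa [e1, e2] at h1
  have key : ∀ l (s t : ℝ), (((s : ℂ) * 1 + t * eh 0) * (s * YA l + t * YB l)).re =
      s * t * ((YB l).re + (eh 0 * YA l).re) := by
    intro l s t
    have e : ((s : ℂ) * 1 + t * eh 0) * (s * YA l + t * YB l) = ((s * s : ℝ) : ℂ) * (1 * YA l) +
        ((s * t : ℝ) : ℂ) * (YB l + eh 0 * YA l) + ((t * t : ℝ) : ℂ) * (eh 0 * YB l) := by
      push_cast
      ring
    rw [e, Complex.add_re, Complex.add_re, Complex.re_ofReal_mul, Complex.re_ofReal_mul,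
      Complex.re_ofReal_mul, aA, aB, Complex.add_re]
    ring
  have hR0 : ∀ l, R l ≠ 0 := fun l h0 => by
    have h1 := hR l
    rw [h0, zero_pow two_ne_zero] at h1
    exact prod_ne_zero_iff.2 (fun p _ => sub_ne_zero.2 (hne l p).symm) h1.symm
  have mid : ∀ l, (YB l).re + (eh 0 * YA l).re = 0 := by
    intro l
    obtain ⟨qC, YC, hC, aC⟩ := h l (eh 1) (Or.inr (Or.inr rfl))
    have h1 := mul_left_cancel₀ (hR0 l) (pol_unique hinj (hy l) (hne l) hC (hP l (eh 1))).2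
    have h2 := key l ((eh 1).re - (eh 1).im) (√2 * (eh 1).im)
    rw [← eta_eq, ← h1, aC] at h2
    refine (mul_eq_zero.1 h2.symm).resolve_left ?_
    have h3 : (0 : ℝ) < 1 / √2 := by positivity
    have h4 : (eh 1).re = 1 / √2 := by simp [eh]
    have h5 : (eh 1).im = -(1 / √2) := by simp [eh]
    rw [h4, h5]
    exact mul_ne_zero (by linarith) (mul_ne_zero s2_ne (by linarith))
  refine ⟨⟨R, fun l η z => ((η.re - η.im : ℝ) : ℂ) * qA l z + ((√2 * η.im : ℝ) : ℂ) * qB l z,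
    fun l η => ((η.re - η.im : ℝ) : ℂ) * YA l + ((√2 * η.im : ℝ) : ℂ) * YB l⟩, hR, hP,
    fun k l _ s t η η' => ?_, fun l s t η η' => ?_, fun l η => ?_⟩
  · simp only [Complex.add_re, Complex.add_im, Complex.re_ofReal_mul, Complex.im_ofReal_mul]
    push_cast
    ring
  · simp only [Complex.add_re, Complex.add_im, Complex.re_ofReal_mul, Complex.im_ofReal_mul]
    push_cast
    ring
  · have h2 := key l (η.re - η.im) (√2 * η.im)
    rw [← eta_eq, mid, mul_zero] at h2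
    exact h2

end

/-! ### The phases of the corners -/

/-- The phase of the corner of type `u`. -/
noncomputable def et (u : Site) : ℂ := if u = (0, 0) then 1 else if u = (1, 0) then eh 0 else eh 1

theorem et_A : et (0, 0) = 1 := by unfold et; rw [if_pos rfl]
theorem et_B : et (1, 0) = eh 0 := by unfold et; rw [if_neg (by simp), if_pos rfl]
theorem et_C : et (0, 1) = eh 1 := by unfold et; rw [if_neg (by simp), if_neg (by simp)]

theorem phA_eq (w : ℂ) : phA w = (1 * w).re := by rw [one_mul]; rfl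

theorem phB_eq (w : ℂ) : phB w = (eh 0 * w).re := by
  rw [phB_apply]
  simp only [eh, if_true, Complex.mul_re]
  ring

theorem phC_eq (w : ℂ) : phC w = (eh 1 * w).re := by
  rw [phC_apply]
  simp only [eh, one_ne_zero, if_false, Complex.mul_re]
  ring

theorem phT_eq (u : Site) (w : ℂ) : phT u w = (et u * w).re := by
  unfold phT et
  split_ifs
  · exact phA_eq w
  · exact phB_eq w
  · exact phC_eq w

theorem kap_eq : kap = ⟨1 / Real.pi, -(1 / Real.pi)⟩ := by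
  unfold kap
  apply Complex.ext
  · rw [Complex.div_ofReal_re]; simp
  · rw [Complex.div_ofReal_im]; simp [neg_div]

theorem kx_eq : kx (-kap) = eh 0 * -kap := by
  rw [kap_eq]
  unfold kx eh
  apply Complex.ext <;> simp <;> ring

theorem ky_eq : ky (-kap) = eh 1 * -kap := by
  rw [kap_eq]
  unfold ky eh
  apply Complex.ext <;> simp <;> ring

/-- The kernels of the plane with their residues. -/
theorem exists_pk {u : Site} (hu : u = (0, 0) ∨ u = (1, 0) ∨ u = (0, 1)) :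
    ∃ QA QB QC QE, H135.PKr u QA QB QC QE (et u * -kap) := by
  rcases hu with rfl | rfl | rfl
  · rw [et_A, one_mul]
    exact ⟨_, _, _, _, H135.pkA⟩
  · rw [et_B, ← kx_eq]
    have := H135.pkA.xref
    exact ⟨_, _, _, _, this⟩
  · rw [et_C, ← ky_eq]
    exact ⟨_, _, _, _, H135.pkC⟩

end Vale.Agent.N144.KT
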