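import Vale.Agent.N144.KT.Blk

/-!
The kernels of the free model with a source at a spin, along sequences of lattice points.
-/

namespace Vale.Agent.N144.KT

open Filter Topology Finset Vale.Agent.P144 Vale.Agent.N144.C
open Vale.Agent.P144.H170 (Pt pt rM pos cF RR RS gs VS Mk RR_eq RS_ne RS_sq gs_sq notMem_Mk rtu rtd
  rtu_ne rtd_ne XLim RS_lim tendsto_self unit_prod' Wf_src univ_map_erase exists_pattern)
open Vale.Agent.P144.H135 (w0 v0 F0 phT phT_A phT_B phT_C)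
open Vale.Agent.P144Y (Dom)
open Vale.Agent.P144T (Appr jA jB jC)
open Vale.Agent.P144T.G (Pack Sol pack_exists sol_unique)

/-- The product of the roots. -/
noncomputable def ro {κ : Type} [Fintype κ] (a : ℝ) (r : κ → Site) (w : ℂ) : ℂ :=
  ∏ p, rtu (w - cF a (r p))

theorem RR_ro {ι κ : Type} [Fintype κ] (a : ℝ) (r : κ → Site) (k : ι) (w : ℂ) :
    RR a r (fun q => v0 q k) w = ro a r w := by
  unfold RR ro
  simp

section

variable {κ : Type} [Fintype κ] [DecidableEq κ]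

theorem rM_cons (r : κ → Site) (j : κ) : rM r = r j ::ₘ rM fun i : {i // i ≠ j} => r i :=
  univ_map_erase r j

theorem ro_self {a : ℝ} (ha : 0 < a) (r : κ → Site) (i : κ) :
    ro a r (pos a (r i) (1 / 4) (1 / 4)) = (√a : ℂ) * (rtu AL.z0 * ∏ m : {m // m ≠ i},
      rtu (pos a (r i) (1 / 4) (1 / 4) - cF a (r m))) := by
  unfold ro
  rw [Fintype.prod_eq_mul_prod_subtype_ne _ i, AL.self_eq ha, mul_assoc]

theorem W_src (Λ : Finset Site) (r : κ → Site) (j : κ) (c : AL.Cn) :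
    AL.Wf Λ (rM r) [c, (r j, r j)] = AL.ep c (r j, r j) *
      (AL.QQ Λ (c.2 ::ₘ rM fun i : {i // i ≠ j} => r i) (c.1 ::ₘ {r j}) /
        AL.zj Λ (rM fun i : {i // i ≠ j} => r i) (r j)) := by
  rw [rM_cons r j]
  exact Wf_src _

variable {ι : Type} {Ω : Dom} {a : ι → ℝ} {N : ι → Finset Site} {r : κ → ι → Site} {ζ : κ → ℂ}
  {w : ι → Site} {z : ℂ} {u : Site} {s t : ℝ} {i j : κ} {q : ℂ → ℂ}

/-- The limit of the spinor with the source `j`. -/
abbrev PM (Ω : Dom) (l : Filter ι) (a : ι → ℝ) (N : ι → Finset Site) (r : κ → ι → Site)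
    (ζ : κ → ℂ) (j : κ) (q : ℂ → ℂ) : Prop :=
  Pack Ω.toDom l a N (fun i : {i // i ≠ j} => r i) (r j) (fun i : {i // i ≠ j} => ζ i) (ζ j) q

omit [DecidableEq κ] [Fintype κ] in
theorem sub_inj (h : Function.Injective ζ) (j : κ) :
    Function.Injective fun i : {i // i ≠ j} => ζ i := fun _ _ e => Subtype.ext (h e)

theorem pm_exists {l : Ultrafilter ι} (h : Sq Ω (l : Filter ι) a N r ζ) (j : κ) :
    ∃ q, PM Ω l a N r ζ j q :=
  pack_exists h.a0 h.hN (fun i => h.hr i) (h.hr j) (P144T.A.xj Ω.toDom) (fun i => h.mem i)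
    (h.mem j) (sub_inj h.inj j) fun i e => i.2 (h.inj e)

theorem pm_ssol {l : Filter ι} (hP : PM Ω l a N r ζ j q) :
    SSol Ω (fun i : {i // i ≠ j} => ζ i) (ζ j) q :=
  ⟨hP.sol.diff, hP.sol.bd, fun p _ => hP.sol.res p, hP.sol.src⟩

variable {l : Filter ι}

theorem rho_j_lim (h : Sq Ω l a N r ζ) (hP : PM Ω l a N r ζ j q) :
    Tendsto (fun k => ro (a k) (fun p => r p k) (pos (a k) (r j k) (1 / 4) (1 / 4)) /
      (√(a k) : ℂ)) l (𝓝 (rtu AL.z0 * (sc0 * q (ζ j)))) := by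
  unfold sc0
  rw [mul_assoc _ H365.c0]
  refine (hP.src.const_mul (rtu AL.z0)).congr' ?_
  filter_upwards [h.apos] with k hk
  have hs : (√(a k) : ℂ) ≠ 0 := by exact_mod_cast (Real.sqrt_pos.2 hk).ne'
  rw [ro_self hk (fun p => r p k) j, mul_div_cancel_left₀ _ hs]

theorem rho_i_lim (h : Sq Ω l a N r ζ) (hij : i ≠ j) (hP : PM Ω l a N r ζ j q) :
    Tendsto (fun k => ro (a k) (fun p => r p k) (pos (a k) (r i k) (1 / 4) (1 / 4)) *
      (AL.Wf (N k) (rM fun p => r p k) [(r i k, r i k), (r j k, r j k)] : ℂ) / (√(a k) : ℂ)) l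
      (𝓝 (rtu AL.z0 * -(Complex.I * (sc0 * q (ζ i))))) := by
  have hne : ζ i ≠ ζ j := fun e => hij (h.inj e)
  have t1 := AL.turn (x := r i) (s := 1 / 4) h.a0 (h.hr i) (h.hr j)
    (fun _ => Or.inl ⟨rfl, rfl⟩) (1 / 4) hne
  have t2 := (t1.mul (hP.disA ⟨i, hij⟩)).const_mul (rtu AL.z0)
  have t3 := (AL.pos_lim h.a0 (h.hr i) (1 / 4) (1 / 4)).sub (h.hr j)
  have e0 : rtu AL.z0 * (-1 * ((√(2 * Real.pi) / 2 : ℝ) * (H365.c0 * (Complex.I * q (ζ i))))) =
      rtu AL.z0 * -(Complex.I * (sc0 * q (ζ i))) := by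
    unfold sc0
    ring
  rw [← e0]
  refine t2.congr' ?_
  filter_upwards [h.apos, t3.eventually_ne (sub_ne_zero.2 hne), h.hN.mem h.a0 (h.mem i) (h.hr i)]
    with k ha h1 h3
  have hs : (√(a k) : ℂ) ≠ 0 := by exact_mod_cast (Real.sqrt_pos.2 ha).ne'
  have e1 : ∏ m : {m // m ≠ i}, rtu (pos (a k) (r i k) (1 / 4) (1 / 4) - cF (a k) (r m k)) =
      rtu (pos (a k) (r i k) (1 / 4) (1 / 4) - cF (a k) (r j k)) *
      ∏ m : {m : {m // m ≠ j} // m ≠ ⟨i, hij⟩},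
      rtu (pos (a k) (r i k) (1 / 4) (1 / 4) - cF (a k) (r m k)) := by
    have e2 := Fintype.prod_eq_mul_prod_subtype_ne
      (fun m => rtu (pos (a k) (r i k) (1 / 4) (1 / 4) - cF (a k) (r m k))) i
    have e3 := Fintype.prod_eq_mul_prod_subtype_ne
      (fun m => rtu (pos (a k) (r i k) (1 / 4) (1 / 4) - cF (a k) (r m k))) j
    have e4 := Fintype.prod_eq_mul_prod_subtype_ne
      (fun m : {m // m ≠ j} => rtu (pos (a k) (r i k) (1 / 4) (1 / 4) - cF (a k) (r m k))) ⟨i, hij⟩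
    have h0 : rtu (pos (a k) (r i k) (1 / 4) (1 / 4) - cF (a k) (r i k)) ≠ 0 := by
      rw [AL.self_eq ha]
      exact mul_ne_zero hs (rtu_ne AL.z0_ne)
    refine mul_left_cancel₀ h0 ?_
    rw [← e2, e3, e4]
    ring
  have e5 : AL.Wf (N k) (rM fun p => r p k) [(r i k, r i k), (r j k, r j k)] =
      AL.ep (r i k, r i k) (r j k, r j k) *
        jA (N k) (fun i : {i // i ≠ j} => r i k) (r j k) (r i k) := by
    rw [W_src (N k) (fun p => r p k) j]
    unfold jA AL.xA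
    rw [if_pos h3]
  have h4 := rtd_ne h1
  rw [ro_self ha (fun p => r p k) i, e1, e5]
  push_cast
  have e6 : ∀ x y z w u t : ℂ, w ≠ 0 → x * (y * z / w * (u * w * t)) = x * (z * u) * (y * t) := by
    intro x y z w u t hw
    field_simp
  refine (e6 _ _ _ _ _ _ h4).trans ?_
  rw [mul_assoc (√(a k) : ℂ), mul_div_cancel_left₀ _ hs]

/-- **Two sources.** -/
theorem k1_lim {l : Ultrafilter ι} (h : Sq Ω (l : Filter ι) a N r ζ) (hij : i ≠ j)
    (hq : SSol Ω (fun i : {i // i ≠ j} => ζ i) (ζ j) q) :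
    Tendsto (fun k => ro (a k) (fun p => r p k) (pos (a k) (r i k) (1 / 4) (1 / 4)) *
      ro (a k) (fun p => r p k) (pos (a k) (r j k) (1 / 4) (1 / 4)) *
      (AL.Wf (N k) (rM fun p => r p k) [(r i k, r i k), (r j k, r j k)] : ℂ) / a k) l
      (𝓝 (rtu AL.z0 * rtu AL.z0 * -(Complex.I * (sc0 * q (ζ i)) * (sc0 * q (ζ j))))) := by
  obtain ⟨q', hP⟩ := pm_exists h j
  have h1 := (rho_i_lim h hij hP).mul (rho_j_lim h hP)
  have e : rtu AL.z0 * -(Complex.I * (sc0 * q' (ζ i))) * (rtu AL.z0 * (sc0 * q' (ζ j))) =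
      rtu AL.z0 * rtu AL.z0 * -(Complex.I * (sc0 * q (ζ i)) * (sc0 * q (ζ j))) := by
    rcases ssol_unique (h.mem j) (sub_inj h.inj j) (fun i e => i.2 (h.inj e)) (pm_ssol hP) hq with
      e | e <;> rw [e _ (h.mem i), e _ (h.mem j)] <;> ring
  rw [e] at h1
  refine h1.congr' ?_
  filter_upwards [h.apos] with k ha
  rw [← AL.sqrt_mul_C ha]
  have hs : (√(a k) : ℂ) ≠ 0 := by exact_mod_cast (Real.sqrt_pos.2 ha).ne'
  field_simp

theorem comp_lim (h : Sq Ω l a N r ζ) (hz : z ∈ Ω.D) (hne : ∀ p, ζ p ≠ z)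
    (hw : Tendsto (fun k => pt (a k) (w k)) l (𝓝 z)) (hu : Ty u s t) {φ : ℂ →L[ℝ] ℝ}
    {X : ι → Pt → ℝ}
    (hX : XLim l a (Ω.D \ Mk (fun i : {i // i ≠ j} => ζ i) fun _ : Unit => ζ j)
      (fun i : {i // i ≠ j} => r i) (fun _ : Unit => r j) φ s t X q)
    {R : ℂ} (hR : R ^ 2 = ∏ p, (z - ζ p)) :
    Tendsto (fun k => ro (a k) (fun p => r p k) (pos (a k) (w k) s t) *
      ((AL.ep (cm w u k) (r j k, r j k) * X k (w k) : ℝ) : ℂ)) l
      (𝓝 (-(R * (φ (q z / R) : ℂ)))) := by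
  obtain ⟨S, S', hS⟩ := exists_pattern (ζ := fun i : {i // i ≠ j} => ζ i)
    (ω := fun _ : Unit => ζ j) (z := z) (fun i => (hne i).symm) (fun _ => (hne j).symm)
  have fr : ∀ i : {i // i ≠ j}, Tendsto (fun k => pt (a k) (r i k)) l (𝓝 (ζ i)) := fun i => h.hr i
  have t1 := AL.turn (x := fun k => w k + u) (s := s) h.a0 hw (h.hr j) (fun k => hu.typ _) t
    (hne j).symm
  have hk : z ∈ Ω.D \ Mk (fun i : {i // i ≠ j} => ζ i) fun _ : Unit => ζ j :=
    ⟨hz, notMem_Mk.2 ⟨fun i => (hne i).symm, fun _ => (hne j).symm⟩⟩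
  have t2 := (hX _ hk).comp (tendsto_self hw)
  have t3 := (RS_lim h.a0 fr (fun _ : Unit => h.hr j) hS s t).comp (tendsto_self hw)
  set RRa : ι → ℂ := fun k => RR (a k) (fun i : {i // i ≠ j} => r i k)
    (fun _ : Unit => r j k) (pos (a k) (w k) s t) with hRR
  set RSa : ι → ℂ := fun k => RS S S' (fun i : {i // i ≠ j} => cF (a k) (r i k))
    (fun _ : Unit => pt (a k) (r j k)) (pos (a k) (w k) s t) with hRS
  have hsq : RS S S' (fun i : {i // i ≠ j} => ζ i) (fun _ : Unit => ζ j) z ^ 2 = R ^ 2 := by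
    rw [pow_two, RS_sq, unit_prod', hR, Fintype.prod_eq_mul_prod_subtype_ne _ j, mul_comm]
  rw [← sgn_inv φ hsq]
  set RSl := RS S S' (fun i : {i // i ≠ j} => ζ i) (fun _ : Unit => ζ j) z with hRSl
  have hRSne : RSl ≠ 0 := RS_ne hS
  have e0 : ∀ᶠ k in l, ∃ g : ℝ, g * g = 1 ∧ RRa k = (g : ℂ) * RSa k := by
    filter_upwards [h.apos] with k ha
    exact ⟨_, gs_sq S S' (fun i : {i // i ≠ j} => r i k) (fun _ : Unit => r j k)
      (((w k).1 : ℝ) + s), RR_eq S S' ha _ _ (w k) hu.hs t⟩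
  have t4 : Tendsto (fun k => RRa k * ((X k (w k) - φ (q z / RRa k) : ℝ) : ℂ)) l (𝓝 0) := by
    rw [tendsto_zero_iff_norm_tendsto_zero]
    have h1 := t3.norm.mul t2.norm
    rw [norm_zero, mul_zero] at h1
    refine h1.congr' ?_
    filter_upwards [e0] with k ⟨g, hg, h2⟩
    have hgn : ‖(g : ℂ)‖ = 1 := by
      rw [Complex.norm_real]
      rcases mul_self_eq_one_iff.1 hg with h | h <;> rw [h] <;> simp
    rw [norm_mul, h2, norm_mul, hgn, one_mul, ← h2, Complex.norm_real]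
    rfl
  have t5 : Tendsto (fun k => RRa k * ((φ (q z / RRa k) : ℝ) : ℂ)) l
      (𝓝 (RSl * (φ (q z / RSl) : ℂ))) := by
    have h1 := t3.mul ((Complex.continuous_ofReal.tendsto _).comp ((φ.continuous.tendsto _).comp
      ((tendsto_const_nhds (x := q z)).div t3 hRSne)))
    refine h1.congr' ?_
    filter_upwards [e0] with k ⟨g, hg, h2⟩
    have hgC : (g : ℂ) * (g : ℂ) = 1 := by exact_mod_cast hg
    refine (sgn_inv φ (R := RSa k) (R' := RRa k) ?_ (q z)).symm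
    rw [h2]
    linear_combination (RSa k ^ 2) * hgC
  have t6 := t4.add t5
  rw [zero_add] at t6
  have t7 := t1.mul t6
  rw [neg_one_mul] at t7
  have t8 := (AL.pos_lim h.a0 hw s t).sub (h.hr j)
  refine t7.congr' ?_
  filter_upwards [t8.eventually_ne (sub_ne_zero.2 (hne j).symm)] with k h1
  have h4 := rtd_ne h1
  have e1 : RRa k = (∏ i : {i // i ≠ j}, rtu (pos (a k) (w k) s t - cF (a k) (r i k))) *
      rtd (pos (a k) (w k) s t - pt (a k) (r j k)) := by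
    rw [hRR]
    simp only
    unfold RR
    rw [unit_prod']
  unfold ro
  rw [Fintype.prod_eq_mul_prod_subtype_ne _ j, ← mul_add]
  have e2 : ((X k (w k) - φ (q z / RRa k) : ℝ) : ℂ) + ((φ (q z / RRa k) : ℝ) : ℂ) =
      (X k (w k) : ℂ) := by push_cast; ring
  rw [e2, e1]
  push_cast
  have e3 : ∀ x y z w u : ℂ, w ≠ 0 → x * y / w * (z * w * u) = y * z * (x * u) := by
    intro x y z w u hw
    field_simp
  exact e3 _ _ _ _ _ h4

theorem w_lim (h : Sq Ω l a N r ζ) (hz : z ∈ Ω.D) (hne : ∀ p, ζ p ≠ z)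
    (hw : Tendsto (fun k => pt (a k) (w k)) l (𝓝 z)) (hu : Ty u s t) (hP : PM Ω l a N r ζ j q)
    {R : ℂ} (hR : R ^ 2 = ∏ p, (z - ζ p)) :
    Tendsto (fun k => ro (a k) (fun p => r p k) (pos (a k) (w k) s t) *
      (AL.Wf (N k) (rM fun p => r p k) [cm w u k, (r j k, r j k)] : ℂ) / (√(a k) : ℂ)) l
      (𝓝 (-(R * (phT u (q z / R) : ℂ)))) := by
  have hm := h.cor hz hw hu
  have key : ∀ (φ : ℂ →L[ℝ] ℝ) (J : ι → Pt → ℝ),
      XLim l a (Ω.D \ Mk (fun i : {i // i ≠ j} => ζ i) fun _ : Unit => ζ j)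
        (fun i : {i // i ≠ j} => r i) (fun _ : Unit => r j) φ s t
        (fun k x => (√(a k))⁻¹ * J k x) q →
      (∀ᶠ k in l, AL.Wf (N k) (rM fun p => r p k) [cm w u k, (r j k, r j k)] =
        AL.ep (cm w u k) (r j k, r j k) * J k (w k)) →
      Tendsto (fun k => ro (a k) (fun p => r p k) (pos (a k) (w k) s t) *
        (AL.Wf (N k) (rM fun p => r p k) [cm w u k, (r j k, r j k)] : ℂ) / (√(a k) : ℂ)) l
        (𝓝 (-(R * (φ (q z / R) : ℂ)))) := by
    intro φ J hX hK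
    refine (comp_lim h hz hne hw hu hX hR).congr' ?_
    filter_upwards [hK] with k h1
    rw [h1]
    push_cast
    ring
  rcases hu with ⟨rfl, rfl, rfl⟩ | ⟨rfl, rfl, rfl⟩ | ⟨rfl, rfl, rfl⟩
  · rw [phT_A]
    refine key _ _ hP.slim.A ?_
    filter_upwards [hm] with k hk
    have e0 : w k + (0, 0) = w k := by ext <;> simp
    rw [e0] at hk
    rw [W_src (N k) (fun p => r p k) j]
    unfold jA AL.xA
    rw [if_pos hk, cm, e0]
  · rw [phT_B]
    refine key _ _ hP.slim.B ?_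
    filter_upwards [hm] with k hk
    have e0 : w k + (1, 0) = ((w k).1 + 1, (w k).2) := by ext <;> simp
    rw [e0] at hk
    rw [W_src (N k) (fun p => r p k) j]
    unfold jB AL.xB
    rw [if_pos hk, cm, e0]
  · rw [phT_C]
    refine key _ _ hP.slim.C ?_
    filter_upwards [hm] with k hk
    have e0 : w k + (0, 1) = ((w k).1, (w k).2 + 1) := by ext <;> simp
    rw [e0] at hk
    rw [W_src (N k) (fun p => r p k) j]
    unfold jC AL.xC
    rw [if_pos hk, cm, e0]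

/-- **An energy and a source.** -/
theorem k2_lim {l : Ultrafilter ι} (h : Sq Ω (l : Filter ι) a N r ζ) (hz : z ∈ Ω.D)
    (hne : ∀ p, ζ p ≠ z) (hw : Tendsto (fun k => pt (a k) (w k)) l (𝓝 z)) (hu : Ty u s t)
    (hq : SSol Ω (fun i : {i // i ≠ j} => ζ i) (ζ j) q) {R : ℂ} (hR : R ^ 2 = ∏ p, (z - ζ p)) :
    Tendsto (fun k => ro (a k) (fun p => r p k) (pos (a k) (w k) s t) *
      ro (a k) (fun p => r p k) (pos (a k) (r j k) (1 / 4) (1 / 4)) *
      (AL.Wf (N k) (rM fun p => r p k) [cm w u k, (r j k, r j k)] : ℂ) / a k) l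
      (𝓝 (-(rtu AL.z0 * R * (((et u * (q z / R)).re : ℝ) * (sc0 * q (ζ j)))))) := by
  obtain ⟨q', hP⟩ := pm_exists h j
  have h1 := (w_lim h hz hne hw hu hP hR).mul (rho_j_lim h hP)
  have e : -(R * (phT u (q' z / R) : ℂ)) * (rtu AL.z0 * (sc0 * q' (ζ j))) =
      -(rtu AL.z0 * R * (((et u * (q z / R)).re : ℝ) * (sc0 * q (ζ j)))) := by
    rw [← phT_eq]
    rcases ssol_unique (h.mem j) (sub_inj h.inj j) (fun i e => i.2 (h.inj e)) (pm_ssol hP) hq with
      e | e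
    · rw [e _ hz, e _ (h.mem j)]
      ring
    · rw [e _ hz, e _ (h.mem j), neg_div, map_neg]
      push_cast
      ring
  rw [e] at h1
  refine h1.congr' ?_
  filter_upwards [h.apos] with k ha
  rw [← AL.sqrt_mul_C ha]
  have hs : (√(a k) : ℂ) ≠ 0 := by exact_mod_cast (Real.sqrt_pos.2 ha).ne'
  field_simp

end

end Vale.Agent.N144.KT
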